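import Vale.Agent.P181.H280.Form

set_option autoImplicit false

open scoped TensorProduct

namespace Vale.Agent.P181.H394

open Vale.Agent.P181 Vale.Agent.P181.H280

universe u

section HybridMap

variable {V : Type u} [AddCommGroup V] [Module ℂ V]

/-- The reindexing `(s, 0) ↦ (s, 0)`, `(s, p + 1) ↦ (p, s + 1)`. -/
def hybE (a : ℕ) : Fin a × Fin (a + 1) ≃ Fin a × Fin (a + 1) where
  toFun p := Fin.cases (p.1, 0) (fun t => (t, p.1.succ)) p.2
  invFun p := Fin.cases (p.1, 0) (fun t => (t, p.1.succ)) p.2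
  left_inv := by
    rintro ⟨s, j⟩
    refine Fin.cases ?_ (fun t => ?_) j <;> rfl
  right_inv := by
    rintro ⟨s, j⟩
    refine Fin.cases ?_ (fun t => ?_) j <;> rfl

lemma hybE_zero (a : ℕ) (s : Fin a) : hybE a (s, 0) = (s, 0) := rfl

lemma hybE_succ (a : ℕ) (s p : Fin a) : hybE a (s, p.succ) = (p, s.succ) := rfl

/-- The particle `j` of the hybrid arrangement: `j = 0` takes the first entry of every row, `j = p + 1`
takes the remaining entries of the row `p`. -/
noncomputable def part {a : ℕ} (v : Fin a → Fin (a + 1) → V) (j : Fin (a + 1)) : Sym[ℂ]^a V :=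
  SymmetricPower.tprod ℂ (fun s : Fin a => v (hybE a (s, j)).1 (hybE a (s, j)).2)

lemma part_zero {a : ℕ} (v : Fin a → Fin (a + 1) → V) :
    part v 0 = SymmetricPower.tprod ℂ (fun p : Fin a => v p 0) := rfl

lemma part_succ {a : ℕ} (v : Fin a → Fin (a + 1) → V) (p : Fin a) :
    part v p.succ = SymmetricPower.tprod ℂ (fun s : Fin a => v p s.succ) := rfl

variable [FiniteDimensional ℂ V]

/-- The hybrid arrangement as a multilinear map of tensors (the rows). -/
noncomputable def hybLift (a : ℕ) (V : Type u) [AddCommGroup V] [Module ℂ V]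
    [FiniteDimensional ℂ V] :
    MultilinearMap ℂ (fun _ : Fin a => (⨂[ℂ] _ : Fin (a + 1), V))
      (Sym[ℂ]^(a + 1) (Sym[ℂ]^a V)) :=
  (exists_rowLift ((colMul a (a + 1) V).domDomCongr (hybE a))).choose

lemma hybLift_tprod (a : ℕ) (v : Fin a → Fin (a + 1) → V) :
    hybLift a V (fun i => PiTensorProduct.tprod ℂ (v i)) = SymmetricPower.tprod ℂ (part v) :=
  (exists_rowLift ((colMul a (a + 1) V).domDomCongr (hybE a))).choose_spec v

/-- The permutation of the particles given by a permutation of the rows. -/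
def lift0 {a : ℕ} (e : Equiv.Perm (Fin a)) : Equiv.Perm (Fin (a + 1)) :=
  Equiv.Perm.decomposeFin.symm (0, e)

lemma lift0_zero {a : ℕ} (e : Equiv.Perm (Fin a)) : lift0 e 0 = 0 :=
  Equiv.Perm.decomposeFin_symm_apply_zero 0 e

lemma lift0_succ {a : ℕ} (e : Equiv.Perm (Fin a)) (p : Fin a) : lift0 e p.succ = (e p).succ := by
  rw [lift0, Equiv.Perm.decomposeFin_symm_apply_succ, Equiv.swap_self, Equiv.refl_apply]

omit [FiniteDimensional ℂ V] in
lemma part_perm {a : ℕ} (e : Equiv.Perm (Fin a)) (v : Fin a → Fin (a + 1) → V) (j : Fin (a + 1)) :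
    part (fun i => v (e i)) j = part v (lift0 e j) := by
  refine Fin.cases ?_ (fun p => ?_) j
  · rw [lift0_zero, part_zero, part_zero]
    exact SymmetricPower.tprod_equiv e (fun p => v p 0)
  · rw [lift0_succ, part_succ, part_succ]

lemma hybLift_symm (a : ℕ) (e : Equiv.Perm (Fin a)) (t : Fin a → (⨂[ℂ] _ : Fin (a + 1), V)) :
    hybLift a V (fun i => t (e i)) = hybLift a V t := by
  have h : (hybLift a V).domDomCongr e - hybLift a V = 0 := by
    ext1 t
    apply multilinear_eq_zero_of_span _ _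
      (PiTensorProduct.span_tprod_eq_top (R := ℂ) (s := fun _ : Fin (a + 1) => V))
    intro w hw
    choose v hv using hw
    have hw' : w = fun i => PiTensorProduct.tprod ℂ (v i) := by
      funext i; exact (hv i).symm
    subst hw'
    rw [sub_apply, MultilinearMap.domDomCongr_apply,
      hybLift_tprod a (fun i => v (e i)), hybLift_tprod]
    rw [sub_eq_zero]
    have h2 : part (fun i => v (e i)) = fun j => part v (lift0 e j) := by
      funext j; exact part_perm e v j
    rw [h2]
    exact SymmetricPower.tprod_equiv (lift0 e) (part v)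
  have h1 := congrArg (fun g => g t) h
  simp only [sub_apply, MultilinearMap.domDomCongr_apply,
    zero_apply, sub_eq_zero] at h1
  exact h1

/-- The hybrid map `Sym^a(Sym^{a+1} V) → Sym^{a+1}(Sym^a V)`: take one factor out of each of the `a`
particles in all possible ways, and make a new particle of them. -/
noncomputable def hyb (a : ℕ) (V : Type u) [AddCommGroup V] [Module ℂ V]
    [FiniteDimensional ℂ V] :
    Sym[ℂ]^a (Sym[ℂ]^(a + 1) V) →ₗ[ℂ] Sym[ℂ]^(a + 1) (Sym[ℂ]^a V) :=
  symLift ((hybLift a V).compLinearMap (fun _ => symSum (Fin (a + 1)) V)) (fun e v => by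
    rw [MultilinearMap.compLinearMap_apply, MultilinearMap.compLinearMap_apply]
    exact hybLift_symm a e (fun i => symSum (Fin (a + 1)) V (v i)))

lemma hyb_tprod (a : ℕ) (v : Fin a → Fin (a + 1) → V) :
    hyb a V (SymmetricPower.tprod ℂ (fun i => SymmetricPower.tprod ℂ (v i))) =
      ∑ σ : Fin a → Equiv.Perm (Fin (a + 1)), SymmetricPower.tprod ℂ
        (part (fun i j => v i (σ i j))) := by
  rw [hyb, symLift_tprod, MultilinearMap.compLinearMap_apply]
  simp only [symSum_tprod]
  rw [MultilinearMap.map_sum]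
  apply Finset.sum_congr rfl
  intro σ _
  exact hybLift_tprod a (fun i j => v i (σ i j))

lemma hyb_equivariant (a : ℕ) (g : V →ₗ[ℂ] V) :
    hyb a V ∘ₗ symMap a (symMap (a + 1) g) = symMap (a + 1) (symMap a g) ∘ₗ hyb a V := by
  apply pure_hom_ext
  intro v
  rw [LinearMap.comp_apply, LinearMap.comp_apply, symMap_tprod, hyb_tprod, map_sum]
  have h1 : (fun i => symMap (a + 1) g (SymmetricPower.tprod ℂ (v i))) =
      fun i => SymmetricPower.tprod ℂ (fun j => g (v i j)) := by
    funext i; rw [symMap_tprod]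
  rw [h1, hyb_tprod a (fun i j => g (v i j))]
  apply Finset.sum_congr rfl
  intro σ _
  rw [symMap_tprod]
  congr 1
  funext j
  rw [part, part, symMap_tprod]

end HybridMap

section Pairing

/-- Permutations of `Fin (a + 1)` from the preimage `k` of `0` and a permutation of the rest. -/
def permE {a : ℕ} (k : Fin (a + 1)) (ρ : Equiv.Perm (Fin a)) : Equiv.Perm (Fin (a + 1)) where
  toFun j := Fin.insertNth (α := fun _ => Fin (a + 1)) k 0 (fun p => (ρ p).succ) j
  invFun j := Fin.cases k (fun p => k.succAbove (ρ.symm p)) j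
  left_inv := by
    intro j
    beta_reduce
    rcases Fin.eq_self_or_eq_succAbove k j with h | ⟨p, h⟩
    · subst h
      rw [Fin.insertNth_apply_same]
      rfl
    · subst h
      rw [Fin.insertNth_apply_succAbove, Fin.cases_succ, Equiv.symm_apply_apply]
  right_inv := by
    intro j
    beta_reduce
    refine Fin.cases ?_ (fun p => ?_) j
    · rw [Fin.cases_zero, Fin.insertNth_apply_same]
    · rw [Fin.cases_succ, Fin.insertNth_apply_succAbove, Equiv.apply_symm_apply]

lemma permE_self {a : ℕ} (k : Fin (a + 1)) (ρ : Equiv.Perm (Fin a)) : permE k ρ k = 0 := by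
  change Fin.insertNth (α := fun _ => Fin (a + 1)) k 0 (fun p => (ρ p).succ) k = 0
  rw [Fin.insertNth_apply_same]

lemma permE_succAbove {a : ℕ} (k : Fin (a + 1)) (ρ : Equiv.Perm (Fin a)) (p : Fin a) :
    permE k ρ (k.succAbove p) = (ρ p).succ := by
  change Fin.insertNth (α := fun _ => Fin (a + 1)) k 0 (fun p => (ρ p).succ) (k.succAbove p) = _
  rw [Fin.insertNth_apply_succAbove]

lemma permE_bijective (a : ℕ) : Function.Bijective
    (fun x : Fin (a + 1) × Equiv.Perm (Fin a) => permE x.1 x.2) := by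
  rw [Fintype.bijective_iff_injective_and_card]
  constructor
  · rintro ⟨k, ρ⟩ ⟨k', ρ'⟩ h
    simp only at h
    have hk : k = k' := by
      have h1 := permE_self k ρ
      have h2 := permE_self k' ρ'
      rw [h] at h1
      exact (permE k' ρ').injective (h1.trans h2.symm)
    subst hk
    have hρ : ρ = ρ' := by
      ext p
      have h1 := permE_succAbove k ρ p
      rw [h, permE_succAbove] at h1
      exact congrArg Fin.val (Fin.succ_injective _ h1).symm
    rw [hρ]
  · rw [Fintype.card_prod, Fintype.card_perm, Fintype.card_perm, Fintype.card_fin, Fintype.card_fin,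
      Nat.factorial_succ]

lemma sum_permE {a : ℕ} (f : Equiv.Perm (Fin (a + 1)) → ℂ) :
    ∑ π, f π = ∑ k, ∑ ρ : Equiv.Perm (Fin a), f (permE k ρ) := by
  rw [← (permE_bijective a).sum_comp, Fintype.sum_prod_type]

variable {V : Type u} [AddCommGroup V] [Module ℂ V]

/-- Sum over the permutations of a row of one linear form at the first entry times a product of linear
forms at the other entries, arranged by a permutation. -/
lemma sum_row {a : ℕ} (w : Fin (a + 1) → V) (η : Module.Dual ℂ V) (ξ : Fin a → Module.Dual ℂ V)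
    (e : Equiv.Perm (Fin a)) :
    ∑ σ : Equiv.Perm (Fin (a + 1)), η (w (σ 0)) * ∏ s, ξ s (w (σ (e s).succ)) =
      ryser w ((fun v => η v) * ∏ s, (fun v => ξ s v)) := by
  have h1 : ((fun v => η v) * ∏ s, (fun v => ξ s v) : V → ℂ) =
      ∏ j : Fin (a + 1), (fun v => (Fin.cons η ξ : Fin (a + 1) → Module.Dual ℂ V) j v) := by
    rw [Fin.prod_univ_succ]
    rfl
  have h2 := Equiv.sum_comp (Equiv.mulRight (lift0 e))
    (fun σ : Equiv.Perm (Fin (a + 1)) => η (w (σ 0)) * ∏ s, ξ s (w (σ s.succ)))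
  simp only [Equiv.coe_mulRight, Equiv.Perm.coe_mul, Function.comp_apply, lift0_zero,
    lift0_succ] at h2
  rw [h1, ryser_prod, h2]
  apply Finset.sum_congr rfl
  intro σ _
  rw [Fin.prod_univ_succ]
  simp only [Fin.cons_zero, Fin.cons_succ]

variable [FiniteDimensional ℂ V]

lemma symEval_hyb {a : ℕ} (v : Fin a → Fin (a + 1) → V)
    (ξ : Fin (a + 1) → Fin a → Module.Dual ℂ V) :
    symEval (fun k => symEval (ξ k)) (hyb a V
      (SymmetricPower.tprod ℂ (fun i => SymmetricPower.tprod ℂ (v i)))) =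
    (Fintype.card (Fin a → Equiv.Perm (Fin a)) : ℂ) *
    ∑ k, ∑ ρ : Equiv.Perm (Fin a), ∑ τ : Equiv.Perm (Fin a), ∏ p, ryser (v (ρ p))
      ((fun w => ξ k (τ p) w) * ∏ s, (fun w => ξ (k.succAbove p) s w)) := by
  rw [hyb_tprod, map_sum]
  simp only [symEval_tprod]
  rw [Finset.sum_comm, sum_permE, Finset.mul_sum]
  apply Finset.sum_congr rfl
  intro k _
  rw [Finset.mul_sum]
  apply Finset.sum_congr rfl
  intro ρ _
  have h1 : ∀ σ : Fin a → Equiv.Perm (Fin (a + 1)),
      ∏ j, symEval (ξ j) (part (fun i j => v i (σ i j)) (permE k ρ j)) =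
      ∑ τ : Equiv.Perm (Fin a), ∑ e : Fin a → Equiv.Perm (Fin a),
        ∏ p, (ξ k (τ p) (v (ρ p) (σ (ρ p) 0)) *
          ∏ s, ξ (k.succAbove p) s (v (ρ p) (σ (ρ p) (e p s).succ))) := by
    intro σ
    rw [Fin.prod_univ_succAbove _ k, permE_self, part_zero, symEval_tprod]
    have h2 : ∑ e : Equiv.Perm (Fin a), ∏ s, ξ k s (v (e s) (σ (e s) 0)) =
        ∑ τ : Equiv.Perm (Fin a), ∏ p, ξ k (τ p) (v (ρ p) (σ (ρ p) 0)) := by
      rw [← Equiv.sum_comp ((Equiv.inv _).trans (Equiv.mulLeft ρ))]
      apply Finset.sum_congr rfl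
      intro τ _
      rw [← Equiv.prod_comp τ]
      apply Finset.prod_congr rfl
      intro p _
      have h3 : ((Equiv.inv _).trans (Equiv.mulLeft ρ)) τ (τ p) = ρ p := by
        change ρ (τ.symm (τ p)) = ρ p
        rw [Equiv.symm_apply_apply]
      rw [h3]
    rw [h2, Finset.sum_mul]
    apply Finset.sum_congr rfl
    intro τ _
    simp only [permE_succAbove, part_succ, symEval_tprod, Finset.prod_mul_distrib]
    rw [← Finset.mul_sum]
    congr 1
    rw [Finset.prod_univ_sum, Fintype.piFinset_univ]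
  rw [Finset.sum_congr rfl (fun σ _ => h1 σ), Finset.sum_comm, Finset.mul_sum]
  apply Finset.sum_congr rfl
  intro τ _
  rw [Finset.sum_comm]
  have h3 : ∀ e : Fin a → Equiv.Perm (Fin a), ∑ σ : Fin a → Equiv.Perm (Fin (a + 1)),
      ∏ p, (ξ k (τ p) (v (ρ p) (σ (ρ p) 0)) *
          ∏ s, ξ (k.succAbove p) s (v (ρ p) (σ (ρ p) (e p s).succ))) =
      ∏ p, ryser (v (ρ p))
        ((fun w => ξ k (τ p) w) * ∏ s, (fun w => ξ (k.succAbove p) s w)) := by
    intro e
    rw [← (Equiv.arrowCongr ρ (Equiv.refl (Equiv.Perm (Fin (a + 1))))).sum_comp]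
    simp only [Equiv.arrowCongr_apply, Equiv.coe_refl, Function.comp_apply, id_eq,
      Equiv.symm_apply_apply]
    have h5 := Finset.prod_univ_sum (fun _ : Fin a => (Finset.univ : Finset (Equiv.Perm (Fin (a + 1)))))
      (fun p σ => ξ k (τ p) (v (ρ p) (σ 0)) *
          ∏ s, ξ (k.succAbove p) s (v (ρ p) (σ (e p s).succ)))
    rw [Fintype.piFinset_univ] at h5
    rw [← h5]
    apply Finset.prod_congr rfl
    intro p _
    exact sum_row (v (ρ p)) (ξ k (τ p)) (ξ (k.succAbove p)) (e p)
  rw [Finset.sum_congr rfl (fun e _ => h3 e), Finset.sum_const, nsmul_eq_mul, Finset.card_univ]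

end Pairing

end Vale.Agent.P181.H394
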