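import Vale.Agent.P181.H280.Final
import Vale.Agent.P181.H394.Hyb

set_option autoImplicit false

open scoped TensorProduct

namespace Vale.Agent.P181.H394

open Vale.Agent.P181 Vale.Agent.P181.H280

variable {n : ℕ}

lemma evL_mul (P Q : MvPolynomial (Fin n) ℂ) : evL n (P * Q) = evL n P * evL n Q := by
  funext v
  rw [evL_apply, map_mul, Pi.mul_apply]
  rfl

/-- The form of an element killed by the hybrid map: for all products of linear forms
`G_k = ∏ s, L k s` (`k = 0, …, a`), the sum over `k` of the values of the form where the factors of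
`G_k` are distributed in all ways over the other `a` products, vanishes. -/
theorem formOf_hyb {a : ℕ} (l : (Fin a → Fin (a + 1) → (Fin n → ℂ)) →₀ ℂ)
    (h0 : hyb a (Fin n → ℂ) (elOf l) = 0) (L : Fin (a + 1) → Fin a → MvPolynomial (Fin n) ℂ)
    (hL : ∀ k s, L k s ∈ linS n) :
    ∑ k : Fin (a + 1), ∑ τ : Equiv.Perm (Fin a),
      formOf l (fun p => L k (τ p) * ∏ s, L (k.succAbove p) s) = 0 := by
  choose ξ hξ using fun k s => exists_dual (hL k s)
  have h2 := congrArg (symEval (fun k => symEval (ξ k))) h0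
  rw [map_zero, elOf, map_sum, map_sum] at h2
  simp only [map_smul, symEval_hyb, smul_eq_mul] at h2
  have hc : (Fintype.card (Fin a → Equiv.Perm (Fin a)) : ℂ) ≠ 0 := by
    exact_mod_cast Fintype.card_ne_zero
  have h3 : (Fintype.card (Fin a → Equiv.Perm (Fin a)) : ℂ) *
      (∑ v ∈ l.support, l v * ∑ k, ∑ ρ : Equiv.Perm (Fin a), ∑ τ : Equiv.Perm (Fin a),
        ∏ p, ryser (v (ρ p))
          ((fun w => ξ k (τ p) w) * ∏ s, (fun w => ξ (k.succAbove p) s w))) = 0 := by
    rw [← h2, Finset.mul_sum]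
    apply Finset.sum_congr rfl
    intro v _
    ring
  have h4 := (mul_eq_zero.1 h3).resolve_left hc
  rw [← h4]
  have h5 : ∀ (k : Fin (a + 1)) (τ : Equiv.Perm (Fin a)) (p : Fin a),
      evL n (L k (τ p) * ∏ s, L (k.succAbove p) s) =
        (fun w => ξ k (τ p) w) * ∏ s, (fun w => ξ (k.succAbove p) s w) := by
    intro k τ p
    rw [evL_mul, evL_prod, hξ]
    congr 1
    apply Finset.prod_congr rfl
    intro s _
    rw [hξ]
  simp only [formOf_apply, h5]
  rw [Finset.sum_congr rfl (fun k _ => Finset.sum_comm), Finset.sum_comm]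
  apply Finset.sum_congr rfl
  intro v _
  rw [Finset.mul_sum]
  apply Finset.sum_congr rfl
  intro k _
  rw [← Finset.mul_sum, Finset.sum_comm]

lemma hyb_hwSpace {a : ℕ} (lam : Fin n → ℕ)
    (x : Sym[ℂ]^a (Sym[ℂ]^(a + 1) (Fin n → ℂ))) (hx : x ∈ hwSpace lam (plethAct a (a + 1) n)) :
    hyb a (Fin n → ℂ) x ∈ hwSpace lam (plethAct (a + 1) a n) := by
  intro g hg
  have h1 := LinearMap.congr_fun (hyb_equivariant a (Matrix.toLin' g)) x
  rw [LinearMap.comp_apply, LinearMap.comp_apply] at h1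
  have h2 : symMap a (symMap (a + 1) (Matrix.toLin' g)) x = (∏ i, g i i ^ lam i) • x := hx g hg
  rw [h2, map_smul] at h1
  exact h1.symm

/-- Injectivity of the hybrid map on the highest weight vectors of weight `lam` gives Foulkes'
inequality for `(a, a + 1, lam)`. -/
theorem plethMult_le_of_hyb {a : ℕ} (lam : Fin n → ℕ)
    (h : ∀ x ∈ hwSpace lam (plethAct a (a + 1) n), hyb a (Fin n → ℂ) x = 0 → x = 0) :
    plethMult a (a + 1) n lam ≤ plethMult (a + 1) a n lam :=
  finrank_le_of_inj (hyb a (Fin n → ℂ)) _ _ (fun x hx => hyb_hwSpace lam x hx) h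

/-- The same from the vanishing of forms. -/
theorem plethMult_le_of_form {a : ℕ} (lam : Fin n → ℕ)
    (h : ∀ l : (Fin a → Fin (a + 1) → (Fin n → ℂ)) →₀ ℂ,
      elOf l ∈ hwSpace lam (plethAct a (a + 1) n) →
      (∀ L : Fin (a + 1) → Fin a → MvPolynomial (Fin n) ℂ, (∀ k s, L k s ∈ linS n) →
        ∑ k : Fin (a + 1), ∑ τ : Equiv.Perm (Fin a),
          formOf l (fun p => L k (τ p) * ∏ s, L (k.succAbove p) s) = 0) →
      ∀ P : Fin a → MvPolynomial (Fin n) ℂ, (∀ i, P i ∈ linS n ^ (a + 1)) → formOf l P = 0) :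
    (∀ x ∈ hwSpace lam (plethAct a (a + 1) n), hyb a (Fin n → ℂ) x = 0 → x = 0) ∧
      plethMult a (a + 1) n lam ≤ plethMult (a + 1) a n lam := by
  have h1 : ∀ x ∈ hwSpace lam (plethAct a (a + 1) n), hyb a (Fin n → ℂ) x = 0 → x = 0 := by
    intro x hx h0
    obtain ⟨l, rfl⟩ := exists_elOf x
    exact elOf_eq_zero l (h l hx (fun L hL => formOf_hyb l h0 L hL))
  exact ⟨h1, plethMult_le_of_hyb lam h1⟩

end Vale.Agent.P181.H394
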