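import Vale.Agent.P181.H280.Final

set_option autoImplicit false

open scoped TensorProduct

namespace Vale.Agent.P181.H394

open Vale.Agent.P181 Vale.Agent.P181.H280

universe u

/-- The particles of the general hybrid arrangement: `k` transversal ones, and `q` for each row. -/
abbrev T (k a q : ℕ) : Type := Fin k ⊕ (Fin a × Fin q)

section Comb

variable {k a q b : ℕ}

/-- The reindexing `(s, t) ↦ (s, t)`, `(s, (p, j)) ↦ (p, (s, j))`. -/
def swF (x : Fin a × T k a q) : Fin a × T k a q :=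
  Sum.elim (fun t => (x.1, Sum.inl t)) (fun pj => (pj.1, Sum.inr (x.1, pj.2))) x.2

lemma swF_inl (s : Fin a) (t : Fin k) :
    swF (q := q) (s, Sum.inl t) = (s, Sum.inl t) := rfl

lemma swF_inr (s p : Fin a) (j : Fin q) :
    swF (k := k) (s, Sum.inr (p, j)) = (p, Sum.inr (s, j)) := rfl

lemma swF_swF (x : Fin a × T k a q) : swF (swF x) = x := by
  rcases x with ⟨s, t | ⟨p, j⟩⟩ <;> rfl

/-- `swF` as an equivalence. -/
def swE (k a q : ℕ) : Fin a × T k a q ≃ Fin a × T k a q where
  toFun := swF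
  invFun := swF
  left_inv := swF_swF
  right_inv := swF_swF

/-- `swE` on `Fin a × Fin b`. -/
def posE (ε : T k a q ≃ Fin b) : Fin a × Fin b ≃ Fin a × Fin b :=
  (Equiv.prodCongr (Equiv.refl _) ε.symm).trans
    ((swE k a q).trans (Equiv.prodCongr (Equiv.refl _) ε))

lemma posE_apply (ε : T k a q ≃ Fin b) (s : Fin a) (κ : Fin b) :
    posE ε (s, κ) = ((swF (s, ε.symm κ)).1, ε (swF (s, ε.symm κ)).2) := rfl

/-- The permutation of the particles given by a permutation of the rows. -/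
def liftE (k q : ℕ) (e : Equiv.Perm (Fin a)) : Equiv.Perm (T k a q) :=
  Equiv.sumCongr (Equiv.refl _) (Equiv.prodCongr e (Equiv.refl _))

lemma liftE_inl (e : Equiv.Perm (Fin a)) (t : Fin k) :
    liftE k q e (Sum.inl t) = Sum.inl t := rfl

lemma liftE_inr (e : Equiv.Perm (Fin a)) (p : Fin a) (j : Fin q) :
    liftE k q e (Sum.inr (p, j)) = Sum.inr (e p, j) := rfl

/-- The permutation `(s, j) ↦ (ρ_j s, j)` of the entries of a row. -/
def rowE (k : ℕ) (ρ : Fin q → Equiv.Perm (Fin a)) : Equiv.Perm (T k a q) :=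
  Equiv.sumCongr (Equiv.refl _)
    { toFun := fun x => (ρ x.2 x.1, x.2)
      invFun := fun x => ((ρ x.2).symm x.1, x.2)
      left_inv := fun x => by simp
      right_inv := fun x => by simp }

lemma rowE_inl (ρ : Fin q → Equiv.Perm (Fin a)) (t : Fin k) :
    rowE k ρ (Sum.inl t) = Sum.inl t := rfl

lemma rowE_inr (ρ : Fin q → Equiv.Perm (Fin a)) (s : Fin a) (j : Fin q) :
    rowE k ρ (Sum.inr (s, j)) = Sum.inr (ρ j s, j) := rfl

lemma sum_perm_T (ε : T k a q ≃ Fin b) (f : Fin b → T k a q → ℂ) :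
    ∑ π : Equiv.Perm (Fin b), ∏ κ, f κ (ε.symm (π κ)) =
      ∑ e : Equiv.Perm (T k a q), ∏ κ, f (ε (e κ)) κ := by
  rw [← Equiv.sum_comp ((ε.permCongr).trans (Equiv.inv _))]
  apply Finset.sum_congr rfl
  intro e _
  rw [← Equiv.prod_comp (e.trans ε)]
  apply Finset.prod_congr rfl
  intro κ _
  have h1 : (((ε.permCongr).trans (Equiv.inv _)) e) ((e.trans ε) κ) = ε κ := by
    change (ε.permCongr e).symm (ε (e κ)) = ε κ
    rw [Equiv.symm_apply_eq, Equiv.permCongr_apply, Equiv.symm_apply_apply]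
  rw [h1, Equiv.symm_apply_apply]
  rfl

end Comb

section HybridMap

variable {V : Type u} [AddCommGroup V] [Module ℂ V] {k a q b : ℕ}

/-- The particle `κ` of the hybrid arrangement of the array `v`. -/
noncomputable def partG (ε : T k a q ≃ Fin b) (v : Fin a → Fin b → V) (κ : T k a q) :
    Sym[ℂ]^a V :=
  SymmetricPower.tprod ℂ (fun s : Fin a => v (swF (s, κ)).1 (ε (swF (s, κ)).2))

lemma partG_inl (ε : T k a q ≃ Fin b) (v : Fin a → Fin b → V) (t : Fin k) :
    partG ε v (Sum.inl t) = SymmetricPower.tprod ℂ (fun p : Fin a => v p (ε (Sum.inl t))) := rfl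

lemma partG_inr (ε : T k a q ≃ Fin b) (v : Fin a → Fin b → V) (p : Fin a) (j : Fin q) :
    partG ε v (Sum.inr (p, j)) =
      SymmetricPower.tprod ℂ (fun s : Fin a => v p (ε (Sum.inr (s, j)))) := rfl

lemma partG_perm (ε : T k a q ≃ Fin b) (e : Equiv.Perm (Fin a)) (v : Fin a → Fin b → V)
    (κ : T k a q) : partG ε (fun i => v (e i)) κ = partG ε v (liftE k q e κ) := by
  rcases κ with t | ⟨p, j⟩
  · rw [liftE_inl, partG_inl, partG_inl]
    exact SymmetricPower.tprod_equiv e (fun p => v p (ε (Sum.inl t)))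
  · rw [liftE_inr, partG_inr, partG_inr]

variable [FiniteDimensional ℂ V]

/-- The hybrid arrangement as a multilinear map of tensors (the rows). -/
noncomputable def hybGLift (ε : T k a q ≃ Fin b) (V : Type u) [AddCommGroup V] [Module ℂ V]
    [FiniteDimensional ℂ V] :
    MultilinearMap ℂ (fun _ : Fin a => (⨂[ℂ] _ : Fin b, V)) (Sym[ℂ]^b (Sym[ℂ]^a V)) :=
  (exists_rowLift ((colMul a b V).domDomCongr (posE ε))).choose

lemma hybGLift_tprod (ε : T k a q ≃ Fin b) (v : Fin a → Fin b → V) :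
    hybGLift ε V (fun i => PiTensorProduct.tprod ℂ (v i)) =
      SymmetricPower.tprod ℂ (fun κ => partG ε v (ε.symm κ)) :=
  (exists_rowLift ((colMul a b V).domDomCongr (posE ε))).choose_spec v

lemma hybGLift_symm (ε : T k a q ≃ Fin b) (e : Equiv.Perm (Fin a))
    (t : Fin a → (⨂[ℂ] _ : Fin b, V)) :
    hybGLift ε V (fun i => t (e i)) = hybGLift ε V t := by
  have h : (hybGLift ε V).domDomCongr e - hybGLift ε V = 0 := by
    ext1 t
    apply multilinear_eq_zero_of_span _ _
      (PiTensorProduct.span_tprod_eq_top (R := ℂ) (s := fun _ : Fin b => V))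
    intro w hw
    choose v hv using hw
    have hw' : w = fun i => PiTensorProduct.tprod ℂ (v i) := by
      funext i; exact (hv i).symm
    subst hw'
    rw [sub_apply, MultilinearMap.domDomCongr_apply,
      hybGLift_tprod ε (fun i => v (e i)), hybGLift_tprod]
    rw [sub_eq_zero]
    have h2 : (fun κ => partG ε (fun i => v (e i)) (ε.symm κ)) =
        fun κ => (fun κ' => partG ε v (ε.symm κ')) (ε.permCongr (liftE k q e) κ) := by
      funext κ
      rw [partG_perm]
      simp only [Equiv.permCongr_apply, Equiv.symm_apply_apply]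
    rw [h2]
    exact SymmetricPower.tprod_equiv (ε.permCongr (liftE k q e))
      (fun κ' => partG ε v (ε.symm κ'))
  have h1 := congrArg (fun g => g t) h
  simp only [sub_apply, MultilinearMap.domDomCongr_apply,
    zero_apply, sub_eq_zero] at h1
  exact h1

/-- The hybrid map `Sym^a(Sym^b V) → Sym^b(Sym^a V)`, `b = k + a q`: take `k` factors out of each of
the `a` particles in all possible ways, make `k` new particles of them (one factor from each old
particle), and cut the rest of every old particle into `q` particles. -/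
noncomputable def hybG (ε : T k a q ≃ Fin b) (V : Type u) [AddCommGroup V] [Module ℂ V]
    [FiniteDimensional ℂ V] : Sym[ℂ]^a (Sym[ℂ]^b V) →ₗ[ℂ] Sym[ℂ]^b (Sym[ℂ]^a V) :=
  symLift ((hybGLift ε V).compLinearMap (fun _ => symSum (Fin b) V)) (fun e v => by
    rw [MultilinearMap.compLinearMap_apply, MultilinearMap.compLinearMap_apply]
    exact hybGLift_symm ε e (fun i => symSum (Fin b) V (v i)))

lemma hybG_tprod (ε : T k a q ≃ Fin b) (v : Fin a → Fin b → V) :
    hybG ε V (SymmetricPower.tprod ℂ (fun i => SymmetricPower.tprod ℂ (v i))) =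
      ∑ σ : Fin a → Equiv.Perm (Fin b), SymmetricPower.tprod ℂ
        (fun κ => partG ε (fun i j => v i (σ i j)) (ε.symm κ)) := by
  rw [hybG, symLift_tprod, MultilinearMap.compLinearMap_apply]
  simp only [symSum_tprod]
  rw [MultilinearMap.map_sum]
  apply Finset.sum_congr rfl
  intro σ _
  exact hybGLift_tprod ε (fun i j => v i (σ i j))

lemma hybG_equivariant (ε : T k a q ≃ Fin b) (g : V →ₗ[ℂ] V) :
    hybG ε V ∘ₗ symMap a (symMap b g) = symMap b (symMap a g) ∘ₗ hybG ε V := by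
  apply pure_hom_ext
  intro v
  rw [LinearMap.comp_apply, LinearMap.comp_apply, symMap_tprod, hybG_tprod, map_sum]
  have h1 : (fun i => symMap b g (SymmetricPower.tprod ℂ (v i))) =
      fun i => SymmetricPower.tprod ℂ (fun j => g (v i j)) := by
    funext i; rw [symMap_tprod]
  rw [h1, hybG_tprod ε (fun i j => g (v i j))]
  apply Finset.sum_congr rfl
  intro σ _
  rw [symMap_tprod]
  congr 1
  funext κ
  rw [partG, partG, symMap_tprod]

end HybridMap

section Pairing

variable {V : Type u} [AddCommGroup V] [Module ℂ V] {k a q b : ℕ}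

/-- Sum over the permutations of a row, with the blocks permuted. -/
lemma sum_rowG (ε : T k a q ≃ Fin b) (w : Fin b → V) (η : Fin k → Module.Dual ℂ V)
    (ζ : Fin q → Fin a → Module.Dual ℂ V) (ρ : Fin q → Equiv.Perm (Fin a)) :
    ∑ σ : Equiv.Perm (Fin b), (∏ t, η t (w (σ (ε (Sum.inl t))))) *
        ∏ j, ∏ s, ζ j s (w (σ (ε (Sum.inr (ρ j s, j))))) =
      ryser w ((∏ t, (fun v => η t v)) * ∏ j, ∏ s, (fun v => ζ j s v)) := by
  let θ : T k a q → Module.Dual ℂ V := Sum.elim η (fun x => ζ x.2 x.1)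
  have h1 : ((∏ t, (fun v => η t v)) * ∏ j, ∏ s, (fun v => ζ j s v) : V → ℂ) =
      ∏ κ : Fin b, (fun v => θ (ε.symm κ) v) := by
    rw [← Equiv.prod_comp ε (fun κ => (fun v => θ (ε.symm κ) v : V → ℂ))]
    simp only [Equiv.symm_apply_apply]
    rw [Fintype.prod_sum_type, Fintype.prod_prod_type, Finset.prod_comm]
    rfl
  have h2 := Equiv.sum_comp (Equiv.mulRight (ε.permCongr (rowE k ρ)))
    (fun σ : Equiv.Perm (Fin b) => ∏ κ : Fin b, θ (ε.symm κ) (w (σ κ)))
  rw [h1, ryser_prod, ← h2]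
  apply Finset.sum_congr rfl
  intro σ _
  rw [← Equiv.prod_comp ε, Fintype.prod_sum_type, Fintype.prod_prod_type]
  simp only [Equiv.symm_apply_apply]
  congr 1
  · apply Finset.prod_congr rfl
    intro t _
    have h3 : (Equiv.mulRight (ε.permCongr (rowE k ρ)) σ) (ε (Sum.inl t)) =
        σ (ε (Sum.inl t)) := by
      change σ (ε.permCongr (rowE k ρ) (ε (Sum.inl t))) = _
      rw [Equiv.permCongr_apply, Equiv.symm_apply_apply, rowE_inl]
    rw [h3]
    rfl
  · rw [Finset.prod_comm]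
    apply Finset.prod_congr rfl
    intro s _
    apply Finset.prod_congr rfl
    intro j _
    have h3 : (Equiv.mulRight (ε.permCongr (rowE k ρ)) σ) (ε (Sum.inr (s, j))) =
        σ (ε (Sum.inr (ρ j s, j))) := by
      change σ (ε.permCongr (rowE k ρ) (ε (Sum.inr (s, j)))) = _
      rw [Equiv.permCongr_apply, Equiv.symm_apply_apply, rowE_inr]
    rw [h3]
    rfl

variable [FiniteDimensional ℂ V]

lemma symEval_transversal (w : Fin a → V) (ξ : Fin a → Module.Dual ℂ V) :
    symEval ξ (SymmetricPower.tprod ℂ w) = ∑ τ : Equiv.Perm (Fin a), ∏ p, ξ (τ p) (w p) := by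
  rw [symEval_tprod, ← Equiv.sum_comp (Equiv.inv _)]
  apply Finset.sum_congr rfl
  intro τ _
  rw [← Equiv.prod_comp τ]
  apply Finset.prod_congr rfl
  intro p _
  have h3 : (Equiv.inv (Equiv.Perm (Fin a)) τ) (τ p) = p := by
    change τ.symm (τ p) = p
    rw [Equiv.symm_apply_apply]
  rw [h3]

lemma symEval_hybG (ε : T k a q ≃ Fin b) (v : Fin a → Fin b → V)
    (ξ : Fin b → Fin a → Module.Dual ℂ V) :
    symEval (fun κ => symEval (ξ κ)) (hybG ε V
      (SymmetricPower.tprod ℂ (fun i => SymmetricPower.tprod ℂ (v i)))) =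
    (Fintype.card (Fin a × Fin q → Equiv.Perm (Fin a)) : ℂ) *
    ∑ e : Equiv.Perm (T k a q), ∑ τ : Fin k → Equiv.Perm (Fin a), ∏ p, ryser (v p)
      ((∏ t, (fun w => ξ (ε (e (Sum.inl t))) (τ t p) w)) *
        ∏ j, ∏ s, (fun w => ξ (ε (e (Sum.inr (p, j)))) s w)) := by
  rw [hybG_tprod, map_sum]
  simp only [symEval_tprod]
  have h0 : ∀ σ : Fin a → Equiv.Perm (Fin b),
      ∑ π : Equiv.Perm (Fin b), ∏ κ, symEval (ξ κ)
        (partG ε (fun i j => v i (σ i j)) (ε.symm (π κ))) =
      ∑ e : Equiv.Perm (T k a q), ∑ τ : Fin k → Equiv.Perm (Fin a),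
        ∑ ρ : Fin a × Fin q → Equiv.Perm (Fin a), ∏ p,
          ((∏ t, ξ (ε (e (Sum.inl t))) (τ t p) (v p (σ p (ε (Sum.inl t))))) *
          ∏ j, ∏ s, ξ (ε (e (Sum.inr (p, j)))) s (v p (σ p (ε (Sum.inr (ρ (p, j) s, j)))))) := by
    intro σ
    rw [sum_perm_T ε (fun κ x => symEval (ξ κ) (partG ε (fun i j => v i (σ i j)) x))]
    apply Finset.sum_congr rfl
    intro e _
    rw [Fintype.prod_sum_type]
    have h1 : ∏ t : Fin k, symEval (ξ (ε (e (Sum.inl t))))
          (partG ε (fun i j => v i (σ i j)) (Sum.inl t)) =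
        ∑ τ : Fin k → Equiv.Perm (Fin a), ∏ t, ∏ p,
          ξ (ε (e (Sum.inl t))) (τ t p) (v p (σ p (ε (Sum.inl t)))) := by
      simp only [partG_inl, symEval_transversal]
      rw [Finset.prod_univ_sum, Fintype.piFinset_univ]
    have h2 : ∏ x : Fin a × Fin q, symEval (ξ (ε (e (Sum.inr x))))
          (partG ε (fun i j => v i (σ i j)) (Sum.inr x)) =
        ∑ ρ : Fin a × Fin q → Equiv.Perm (Fin a), ∏ x : Fin a × Fin q, ∏ s,
          ξ (ε (e (Sum.inr x))) s (v x.1 (σ x.1 (ε (Sum.inr (ρ x s, x.2))))) := by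
      have h3 : ∀ x : Fin a × Fin q, partG ε (fun i j => v i (σ i j)) (Sum.inr x) =
          SymmetricPower.tprod ℂ (fun s : Fin a => v x.1 (σ x.1 (ε (Sum.inr (s, x.2))))) := by
        rintro ⟨p, j⟩
        rfl
      simp only [h3, symEval_tprod]
      rw [Finset.prod_univ_sum, Fintype.piFinset_univ]
    rw [h1, h2, Finset.sum_mul]
    apply Finset.sum_congr rfl
    intro τ _
    rw [Finset.mul_sum]
    apply Finset.sum_congr rfl
    intro ρ _
    rw [Finset.prod_mul_distrib, Finset.prod_comm, Fintype.prod_prod_type]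
  rw [Finset.sum_congr rfl (fun σ _ => h0 σ), Finset.sum_comm, Finset.mul_sum]
  apply Finset.sum_congr rfl
  intro e _
  rw [Finset.sum_comm, Finset.mul_sum]
  apply Finset.sum_congr rfl
  intro τ _
  rw [Finset.sum_comm]
  have h4 : ∀ ρ : Fin a × Fin q → Equiv.Perm (Fin a), ∑ σ : Fin a → Equiv.Perm (Fin b), ∏ p,
          ((∏ t, ξ (ε (e (Sum.inl t))) (τ t p) (v p (σ p (ε (Sum.inl t))))) *
          ∏ j, ∏ s, ξ (ε (e (Sum.inr (p, j)))) s
            (v p (σ p (ε (Sum.inr (ρ (p, j) s, j)))))) =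
      ∏ p, ryser (v p)
        ((∏ t, (fun w => ξ (ε (e (Sum.inl t))) (τ t p) w)) *
          ∏ j, ∏ s, (fun w => ξ (ε (e (Sum.inr (p, j)))) s w)) := by
    intro ρ
    have h5 := Finset.prod_univ_sum
      (fun _ : Fin a => (Finset.univ : Finset (Equiv.Perm (Fin b))))
      (fun p σ => (∏ t, ξ (ε (e (Sum.inl t))) (τ t p) (v p (σ (ε (Sum.inl t))))) *
          ∏ j, ∏ s, ξ (ε (e (Sum.inr (p, j)))) s (v p (σ (ε (Sum.inr (ρ (p, j) s, j))))))
    rw [Fintype.piFinset_univ] at h5
    rw [← h5]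
    apply Finset.prod_congr rfl
    intro p _
    exact sum_rowG ε (v p) (fun t => ξ (ε (e (Sum.inl t))) (τ t p))
      (fun j => ξ (ε (e (Sum.inr (p, j))))) (fun j => ρ (p, j))
  rw [Finset.sum_congr rfl (fun ρ _ => h4 ρ), Finset.sum_const, nsmul_eq_mul, Finset.card_univ]

end Pairing

end Vale.Agent.P181.H394
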