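import Vale.Agent.P181.H394.HybG
import Vale.Agent.P181.H394.Hyb2

set_option autoImplicit false

open scoped TensorProduct

namespace Vale.Agent.P181.H394

open Vale.Agent.P181 Vale.Agent.P181.H280

variable {n k a q b : ℕ}

/-- The form of an element killed by the hybrid map: for all families of products of `a` linear forms
`G_κ = ∏ s, y κ s`, the sum over all arrangements (`k` of the `G_κ` have their factors distributed over
the `a` slots, the others are put in the slots, `q` in each) of the values of the form vanishes. -/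
theorem formOf_hybG (ε : T k a q ≃ Fin b) (l : (Fin a → Fin b → (Fin n → ℂ)) →₀ ℂ)
    (h0 : hybG ε (Fin n → ℂ) (elOf l) = 0) (y : T k a q → Fin a → MvPolynomial (Fin n) ℂ)
    (hy : ∀ κ s, y κ s ∈ linS n) :
    ∑ e : Equiv.Perm (T k a q), ∑ σ : Fin k → Equiv.Perm (Fin a),
      formOf l (fun p => (∏ t : Fin k, y (e (Sum.inl t)) (σ t p)) *
        ∏ j : Fin q, ∏ s : Fin a, y (e (Sum.inr (p, j))) s) = 0 := by
  choose ξ' hξ' using fun κ s => exists_dual (hy κ s)
  let ξ : Fin b → Fin a → Module.Dual ℂ (Fin n → ℂ) := fun κ => ξ' (ε.symm κ)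
  have hξ : ∀ κ s, evL n (y κ s) = fun v => ξ (ε κ) s v := by
    intro κ s
    rw [hξ']
    simp only [ξ, Equiv.symm_apply_apply]
  have h2 := congrArg (symEval (fun κ => symEval (ξ κ))) h0
  rw [map_zero, elOf, map_sum, map_sum] at h2
  simp only [map_smul, symEval_hybG, smul_eq_mul] at h2
  have hc : (Fintype.card (Fin a × Fin q → Equiv.Perm (Fin a)) : ℂ) ≠ 0 := by
    exact_mod_cast Fintype.card_ne_zero
  set R : (Fin a → Fin b → (Fin n → ℂ)) → ℂ := fun v =>
    ∑ e : Equiv.Perm (T k a q), ∑ τ : Fin k → Equiv.Perm (Fin a), ∏ p, ryser (v p)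
      ((∏ t, (fun w => ξ (ε (e (Sum.inl t))) (τ t p) w)) *
        ∏ j, ∏ s, (fun w => ξ (ε (e (Sum.inr (p, j)))) s w)) with hR
  have h3 : (Fintype.card (Fin a × Fin q → Equiv.Perm (Fin a)) : ℂ) *
      (∑ v ∈ l.support, l v * R v) = 0 := by
    rw [← h2, Finset.mul_sum]
    apply Finset.sum_congr rfl
    intro v _
    ring
  have h4 := (mul_eq_zero.1 h3).resolve_left hc
  have h5 : ∀ (e : Equiv.Perm (T k a q)) (σ : Fin k → Equiv.Perm (Fin a)) (p : Fin a),
      evL n ((∏ t : Fin k, y (e (Sum.inl t)) (σ t p)) *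
        ∏ j : Fin q, ∏ s : Fin a, y (e (Sum.inr (p, j))) s) =
      (∏ t, (fun w => ξ (ε (e (Sum.inl t))) (σ t p) w)) *
        ∏ j, ∏ s, (fun w => ξ (ε (e (Sum.inr (p, j)))) s w) := by
    intro e σ p
    rw [evL_mul, evL_prod, evL_prod]
    simp only [evL_prod, hξ]
  -- the value of `R` does not change when the rows are permuted
  have h6 : ∀ (v : Fin a → Fin b → (Fin n → ℂ)) (ρ : Equiv.Perm (Fin a)),
      ∑ e : Equiv.Perm (T k a q), ∑ σ : Fin k → Equiv.Perm (Fin a), ∏ p, ryser (v (ρ p))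
        ((∏ t, (fun w => ξ (ε (e (Sum.inl t))) (σ t p) w)) *
          ∏ j, ∏ s, (fun w => ξ (ε (e (Sum.inr (p, j)))) s w)) = R v := by
    intro v ρ
    rw [hR]
    simp only
    rw [← Equiv.sum_comp (Equiv.mulRight (liftE k q ρ))]
    apply Finset.sum_congr rfl
    intro e _
    rw [← Equiv.sum_comp (Equiv.piCongrRight (fun _ : Fin k => Equiv.mulRight ρ))]
    apply Finset.sum_congr rfl
    intro σ _
    rw [← Equiv.prod_comp ρ (fun p => ryser (v p)
      ((∏ t, (fun w => ξ (ε (e (Sum.inl t))) (σ t p) w)) *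
        ∏ j, ∏ s, (fun w => ξ (ε (e (Sum.inr (p, j)))) s w)))]
    rfl
  simp only [formOf_apply, h5]
  have h7 : ∑ e : Equiv.Perm (T k a q), ∑ σ : Fin k → Equiv.Perm (Fin a),
      ∑ v ∈ l.support, l v * ∑ ρ : Equiv.Perm (Fin a), ∏ p, ryser (v (ρ p))
        ((∏ t, (fun w => ξ (ε (e (Sum.inl t))) (σ t p) w)) *
          ∏ j, ∏ s, (fun w => ξ (ε (e (Sum.inr (p, j)))) s w)) =
      ∑ v ∈ l.support, l v * ∑ ρ : Equiv.Perm (Fin a), R v := by
    rw [Finset.sum_congr rfl (fun e _ => Finset.sum_comm), Finset.sum_comm]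
    apply Finset.sum_congr rfl
    intro v _
    simp only [← Finset.mul_sum]
    congr 1
    rw [Finset.sum_congr rfl (fun e _ => Finset.sum_comm), Finset.sum_comm]
    apply Finset.sum_congr rfl
    intro ρ _
    exact h6 v ρ
  rw [h7]
  simp only [Finset.sum_const, Finset.card_univ, nsmul_eq_mul]
  have h8 : ∑ v ∈ l.support, l v * ((Fintype.card (Equiv.Perm (Fin a)) : ℂ) * R v) =
      (Fintype.card (Equiv.Perm (Fin a)) : ℂ) * ∑ v ∈ l.support, l v * R v := by
    rw [Finset.mul_sum]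
    apply Finset.sum_congr rfl
    intro v _
    ring
  rw [h8, h4, mul_zero]

lemma hybG_hwSpace (ε : T k a q ≃ Fin b) (lam : Fin n → ℕ)
    (x : Sym[ℂ]^a (Sym[ℂ]^b (Fin n → ℂ))) (hx : x ∈ hwSpace lam (plethAct a b n)) :
    hybG ε (Fin n → ℂ) x ∈ hwSpace lam (plethAct b a n) := by
  intro g hg
  have h1 := LinearMap.congr_fun (hybG_equivariant ε (Matrix.toLin' g)) x
  rw [LinearMap.comp_apply, LinearMap.comp_apply] at h1
  have h2 : symMap a (symMap b (Matrix.toLin' g)) x = (∏ i, g i i ^ lam i) • x := hx g hg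
  rw [h2, map_smul] at h1
  exact h1.symm

/-- Injectivity of the hybrid map on the highest weight vectors of weight `lam` gives Foulkes'
inequality for `(a, b, lam)`. -/
theorem plethMult_le_of_hybG (ε : T k a q ≃ Fin b) (lam : Fin n → ℕ)
    (h : ∀ x ∈ hwSpace lam (plethAct a b n), hybG ε (Fin n → ℂ) x = 0 → x = 0) :
    plethMult a b n lam ≤ plethMult b a n lam :=
  finrank_le_of_inj (hybG ε (Fin n → ℂ)) _ _ (fun x hx => hybG_hwSpace ε lam x hx) h

/-- The same from the vanishing of forms. -/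
theorem plethMult_le_of_formG (ε : T k a q ≃ Fin b) (lam : Fin n → ℕ)
    (h : ∀ l : (Fin a → Fin b → (Fin n → ℂ)) →₀ ℂ,
      elOf l ∈ hwSpace lam (plethAct a b n) →
      (∀ y : T k a q → Fin a → MvPolynomial (Fin n) ℂ, (∀ κ s, y κ s ∈ linS n) →
        ∑ e : Equiv.Perm (T k a q), ∑ σ : Fin k → Equiv.Perm (Fin a),
          formOf l (fun p => (∏ t : Fin k, y (e (Sum.inl t)) (σ t p)) *
            ∏ j : Fin q, ∏ s : Fin a, y (e (Sum.inr (p, j))) s) = 0) →
      ∀ P : Fin a → MvPolynomial (Fin n) ℂ, (∀ i, P i ∈ linS n ^ b) → formOf l P = 0) :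
    (∀ x ∈ hwSpace lam (plethAct a b n), hybG ε (Fin n → ℂ) x = 0 → x = 0) ∧
      plethMult a b n lam ≤ plethMult b a n lam := by
  have h1 : ∀ x ∈ hwSpace lam (plethAct a b n), hybG ε (Fin n → ℂ) x = 0 → x = 0 := by
    intro x hx h0
    obtain ⟨l, rfl⟩ := exists_elOf x
    exact elOf_eq_zero l (h l hx (fun y hy => formOf_hybG ε l h0 y hy))
  exact ⟨h1, plethMult_le_of_hybG ε lam h1⟩

/-- The standard numbering of the particles. -/
noncomputable def numE (k a q : ℕ) : T k a q ≃ Fin (k + a * q) :=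
  Fintype.equivFinOfCardEq (by simp)

/-- One transversal particle. -/
def optE (a q : ℕ) : T 1 a q ≃ Option (Fin a × Fin q) where
  toFun := Sum.elim (fun _ => none) some
  invFun := fun x => x.elim (Sum.inl 0) Sum.inr
  left_inv := by
    rintro (t | x)
    · have h : t = 0 := Subsingleton.elim _ _
      rw [h]
      rfl
    · rfl
  right_inv := by
    rintro (_ | x)
    · rfl
    · rfl

/-- The relation for one transversal particle, in the form with `Option`. -/
theorem formOf_hybG_one (ε : T 1 a q ≃ Fin b) (l : (Fin a → Fin b → (Fin n → ℂ)) →₀ ℂ)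
    (h0 : hybG ε (Fin n → ℂ) (elOf l) = 0)
    (y : Option (Fin a × Fin q) → Fin a → MvPolynomial (Fin n) ℂ)
    (hy : ∀ κ s, y κ s ∈ linS n) :
    ∑ e : Equiv.Perm (Option (Fin a × Fin q)), ∑ σ : Equiv.Perm (Fin a),
      formOf l (fun p => y (e none) (σ p) * ∏ j, ∏ s, y (e (some (p, j))) s) = 0 := by
  have h1 := formOf_hybG ε l h0 (fun κ => y (optE a q κ)) (fun κ s => hy _ _)
  rw [← h1, ← Equiv.sum_comp (optE a q).permCongr]
  apply Finset.sum_congr rfl
  intro e _
  rw [← Equiv.sum_comp (Equiv.funUnique (Fin 1) (Equiv.Perm (Fin a)))]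
  apply Finset.sum_congr rfl
  intro σ _
  congr 1
  funext p
  rw [Fin.prod_univ_one]
  rfl

end Vale.Agent.P181.H394
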