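import Vale.Agent.P181.H394.Lad

set_option autoImplicit false
set_option linter.unusedSectionVars false

/-!
# (K*) for slots of odd degree

`c` odd, `φ` symmetric on `c + 3` slots of degree `c + 2`; if `φ` vanishes whenever all slots have a
common linear factor, then `φ = 0`.
-/

namespace Vale.Agent.P181.H394

open Vale.Agent.P181 Vale.Agent.P181.H280 Finset

variable {A : Type*} [CommRing A] [Algebra ℂ A]

/-- The form as a linear form of its first argument. -/
noncomputable def lin0 {m : ℕ} (φ : MultilinearMap ℂ (fun _ : Fin (m + 1) => A) ℂ) (T : Fin m → A) :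
    A →ₗ[ℂ] ℂ where
  toFun P := φ (Fin.cons P T)
  map_add' x y := MultilinearMap.cons_add φ T x y
  map_smul' r x := MultilinearMap.cons_smul φ T r x

lemma lin0_apply {m : ℕ} (φ : MultilinearMap ℂ (fun _ : Fin (m + 1) => A) ℂ) (T : Fin m → A)
    (P : A) : lin0 φ T P = φ (Fin.cons P T) := rfl

/-- The form as a bilinear form of its first two arguments. -/
noncomputable def bil {m : ℕ} (φ : MultilinearMap ℂ (fun _ : Fin (m + 2) => A) ℂ) (z : A)
    (T : Fin m → A) : A →ₗ[ℂ] A →ₗ[ℂ] ℂ :=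
  LinearMap.mk₂ ℂ (fun P R => φ (Fin.cons P (Fin.cons (z * R) T)))
    (fun P P' R => MultilinearMap.cons_add φ _ P P')
    (fun r P R => MultilinearMap.cons_smul φ _ r P)
    (fun P R R' => by
      rw [mul_add]
      exact MultilinearMap.cons_add (φ.curryLeft P) T (z * R) (z * R'))
    (fun r P R => by
      rw [mul_smul_comm]
      exact MultilinearMap.cons_smul (φ.curryLeft P) T r (z * R))

lemma bil_apply {m : ℕ} (φ : MultilinearMap ℂ (fun _ : Fin (m + 2) => A) ℂ) (z : A)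
    (T : Fin m → A) (P R : A) : bil φ z T P R = φ (Fin.cons P (Fin.cons (z * R) T)) := rfl

lemma mul_cons {m : ℕ} (z x : A) (T : Fin m → A) :
    (fun i : Fin (m + 1) => z * (Fin.cons x T : Fin (m + 1) → A) i) =
      Fin.cons (z * x) (fun l => z * T l) := by
  funext i
  refine Fin.cases ?_ (fun j => ?_) i
  · rfl
  · rfl

lemma swap01 {m : ℕ} {φ : MultilinearMap ℂ (fun _ : Fin (m + 2) => A) ℂ} (hs : IsSymm φ) (P R : A)
    (T : Fin m → A) :
    φ (Fin.cons P (Fin.cons R T)) = φ (Fin.cons R (Fin.cons P T)) := by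
  have h := hs (Equiv.swap 0 1) (Fin.cons R (Fin.cons P T))
  rw [← h]
  congr 1
  funext i
  refine Fin.cases ?_ (fun i => ?_) i
  · rw [Equiv.swap_apply_left]
    rfl
  · refine Fin.cases ?_ (fun i => ?_) i
    · have h1 : (Fin.succ 0 : Fin (m + 2)) = 1 := rfl
      rw [h1, Equiv.swap_apply_right]
      rfl
    · rw [Equiv.swap_apply_of_ne_of_ne]
      · rfl
      · exact Fin.succ_ne_zero _
      · intro h1
        have h2 := congrArg Fin.val h1
        simp at h2

/-- (E1) -/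
lemma e1 {c : ℕ} (hc : Odd c) (L : Submodule ℂ A)
    (φ : MultilinearMap ℂ (fun _ : Fin (c + 3) => A) ℂ)
    (h : ∀ l ∈ L, ∀ y : Fin (c + 3) → A, (∀ i, y i ∈ L ^ (c + 1)) → φ (fun i => l * y i) = 0)
    (u w : A) (hu : u ∈ L) (hw : w ∈ L) (v : Fin (c + 2) → A) (hv : ∀ i, v i ∈ L ^ (c + 1)) :
    φ (Fin.cons (u ^ (c + 2)) (fun i => w * v i)) =
      - φ (Fin.cons (w ^ (c + 2)) (fun i => u * v i)) := by
  have h1 := exch L (e := c + 1) φ (by
    intro w hw g hg v hv
    have h2 := h w hw (Fin.cons g v) (by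
      intro i
      refine Fin.cases ?_ (fun j => ?_) i
      · exact hg
      · exact hv j)
    rw [mul_cons] at h2
    exact h2) u w hu hw v hv
  have h3 : ((-1 : ℂ)) ^ (c + 1 + 1) = -1 := by
    apply Odd.neg_one_pow
    obtain ⟨k, hk⟩ := hc
    exact ⟨k + 1, by omega⟩
  rw [h3, neg_one_mul] at h1
  exact h1

/-- (rho) -/
lemma rho {c : ℕ} (hc : Odd c) (L : Submodule ℂ A)
    (φ : MultilinearMap ℂ (fun _ : Fin (c + 3) => A) ℂ)
    (h : ∀ l ∈ L, ∀ y : Fin (c + 3) → A, (∀ i, y i ∈ L ^ (c + 1)) → φ (fun i => l * y i) = 0)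
    (w z : A) (hw : w ∈ L) (hz : z ∈ L) (V : Fin (c + 2) → A) (hV : ∀ i, V i ∈ L ^ c) :
    ∀ P ∈ L ^ (c + 2), φ (Fin.cons P (fun i => w * (z * V i))) = 0 := by
  have hm : ∀ x ∈ L, ∀ i, x * V i ∈ L ^ (c + 1) := by
    intro x hx i
    rw [pow_succ']
    exact Submodule.mul_mem_mul hx (hV i)
  refine lin_pow_zero L (c + 2) (lin0 φ (fun i => w * (z * V i))) ?_
  intro p hp
  rw [lin0_apply]
  have h1 := e1 hc L φ h p w hp hw (fun i => z * V i) (hm z hz)
  have h2 := e1 hc L φ h w z hw hz (fun i => p * V i) (hm p hp)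
  have h3 := e1 hc L φ h z p hz hp (fun i => w * V i) (hm w hw)
  have h4 : (fun i => p * (z * V i)) = fun i => z * (p * V i) := by
    funext i
    ring
  have h5 : (fun i => w * (p * V i)) = fun i => p * (w * V i) := by
    funext i
    ring
  have h6 : (fun i => z * (w * V i)) = fun i => w * (z * V i) := by
    funext i
    ring
  rw [h4, h2, h5, h3, h6] at h1
  have h7 : (2 : ℂ) * φ (Fin.cons (p ^ (c + 2)) (fun i => w * (z * V i))) = 0 := by
    linear_combination h1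
  exact (mul_eq_zero.1 h7).resolve_left two_ne_zero

/-- (E2) -/
lemma e2 {c : ℕ} (hc : Odd c) (L : Submodule ℂ A)
    (φ : MultilinearMap ℂ (fun _ : Fin (c + 3) => A) ℂ)
    (h : ∀ l ∈ L, ∀ y : Fin (c + 3) → A, (∀ i, y i ∈ L ^ (c + 1)) → φ (fun i => l * y i) = 0)
    (P : A) (hP : P ∈ L ^ (c + 2)) (b u w : A) (hb : b ∈ L) (hu : u ∈ L) (hw : w ∈ L)
    (V : Fin (c + 1) → A) (hV : ∀ i, V i ∈ L ^ c) :
    φ (Fin.cons P (Fin.cons (b * u ^ (c + 1)) (fun l => b * (w * V l)))) =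
      φ (Fin.cons P (Fin.cons (b * w ^ (c + 1)) (fun l => b * (u * V l)))) := by
  let ψ : MultilinearMap ℂ (fun _ : Fin (c + 2) => A) ℂ :=
    (φ.curryLeft P).compLinearMap (fun _ => LinearMap.mulLeft ℂ b)
  have hψ : ∀ x T, ψ (Fin.cons x T) = φ (Fin.cons P (Fin.cons (b * x) (fun l => b * T l))) := by
    intro x T
    rw [← mul_cons]
    rfl
  have h1 := exch L (e := c) ψ (by
    intro w hw g hg v hv
    rw [hψ]
    have h2 := rho hc L φ h b w hb hw (Fin.cons g v) (by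
      intro i
      refine Fin.cases ?_ (fun j => ?_) i
      · exact hg
      · exact hv j) P hP
    have h3 : (fun i : Fin (c + 2) => b * (w * (Fin.cons g v : Fin (c + 2) → A) i)) =
        Fin.cons (b * (w * g)) (fun l => b * (w * v l)) := by
      funext i
      refine Fin.cases ?_ (fun j => ?_) i
      · rfl
      · rfl
    rw [h3] at h2
    exact h2) u w hu hw V hV
  have h3 : ((-1 : ℂ)) ^ (c + 1) = 1 := by
    apply Even.neg_one_pow
    obtain ⟨k, hk⟩ := hc
    exact ⟨k + 1, by omega⟩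
  rw [h3, one_mul, hψ, hψ] at h1
  exact h1

/-- The interpolated form. -/
noncomputable def cbil {c : ℕ} (φ : MultilinearMap ℂ (fun _ : Fin (c + 3) => A) ℂ) {N : ℕ}
    (t k : Fin N → ℂ) (a y : A) (V : Fin (c + 1) → A) : A →ₗ[ℂ] A →ₗ[ℂ] ℂ :=
  ∑ i, k i • bil φ a (fun l => a * ((a + t i • y) * V l))

lemma cbil_apply {c : ℕ} (φ : MultilinearMap ℂ (fun _ : Fin (c + 3) => A) ℂ) {N : ℕ}
    (t k : Fin N → ℂ) (a y : A) (V : Fin (c + 1) → A) (P R : A) : cbil φ t k a y V P R =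
      ∑ i, k i * φ (Fin.cons P (Fin.cons (a * R) (fun l => a * ((a + t i • y) * V l)))) := by
  simp only [cbil, LinearMap.sum_apply, LinearMap.smul_apply, smul_eq_mul, bil_apply]

/-- Extraction of one coefficient. -/
lemma extract {n j : ℕ} (hj : j ≤ n) (f : A →ₗ[ℂ] ℂ) (a y : A) {N : ℕ} (t k : Fin N → ℂ)
    (htk : ∀ m ≤ n, ∑ i, k i * t i ^ m = if m = j then 1 else 0) :
    ∑ i, k i * f ((a + t i • y) ^ n) = (n.choose j : ℂ) * f (a ^ (n - j) * y ^ j) := by
  have h1 : ∀ s : ℂ, f ((a + s • y) ^ n) =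
      ∑ m ∈ range (n + 1), s ^ m * ((n.choose m : ℂ) * f (a ^ (n - m) * y ^ m)) := by
    intro s
    rw [add_comm a, add_pow, map_sum]
    apply Finset.sum_congr rfl
    intro m _
    have h2 : (s • y) ^ m * a ^ (n - m) * (n.choose m : A) =
        (s ^ m * (n.choose m : ℂ)) • (a ^ (n - m) * y ^ m) := by
      rw [smul_pow, Algebra.smul_def, Algebra.smul_def, map_mul, map_natCast]
      ring
    rw [h2, map_smul, smul_eq_mul]
    ring
  simp only [h1, Finset.mul_sum]
  rw [Finset.sum_comm]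
  have h3 : ∀ m ∈ range (n + 1), ∑ i, k i * (t i ^ m * ((n.choose m : ℂ) *
      f (a ^ (n - m) * y ^ m))) = if m = j then (n.choose j : ℂ) * f (a ^ (n - j) * y ^ j) else 0 := by
    intro m hm
    have h4 : ∑ i, k i * (t i ^ m * ((n.choose m : ℂ) * f (a ^ (n - m) * y ^ m))) =
        (∑ i, k i * t i ^ m) * ((n.choose m : ℂ) * f (a ^ (n - m) * y ^ m)) := by
      rw [Finset.sum_mul]
      apply Finset.sum_congr rfl
      intro i _
      ring
    rw [h4, htk m (by rw [Finset.mem_range] at hm; omega)]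
    split_ifs with h5
    · rw [h5, one_mul]
    · rw [zero_mul]
  rw [Finset.sum_congr rfl h3, Finset.sum_ite_eq', if_pos (by rw [Finset.mem_range]; omega)]

/-- One step of the induction. -/
lemma theta_step {c : ℕ} (hc : Odd c) (L : Submodule ℂ A)
    (φ : MultilinearMap ℂ (fun _ : Fin (c + 3) => A) ℂ) (hs : IsSymm φ)
    (h : ∀ l ∈ L, ∀ y : Fin (c + 3) → A, (∀ i, y i ∈ L ^ (c + 1)) → φ (fun i => l * y i) = 0)
    (V : Fin (c + 1) → A) (hV : ∀ l, V l ∈ L ^ c) (j : ℕ) (hj : j ≤ c + 1)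
    (a : A) (ha : a ∈ L) (y : A) (hy : y ∈ L)
    (hl : ∀ z ∈ L, ∀ w ∈ L, ((c + 1 + 1 : ℕ) : ℂ) *
      bil φ z (fun l => z * (w * V l)) (a ^ (c + 1 + 1 - j) * y ^ j) (a ^ (c + 1)) =
      (-1) ^ j * ((c + 1 + 1 - j : ℕ) : ℂ) *
        bil φ z (fun l => z * (w * V l)) (a ^ (c + 1 + 1)) (a ^ (c + 1 - j) * y ^ j)) :
    ∀ z ∈ L, ∀ w ∈ L,
      bil φ z (fun l => z * (w * V l)) (a ^ (c + 1 + 1)) (a ^ (c + 1 - j) * y ^ j) = 0 := by
  obtain ⟨t, k, htk⟩ := interp (c + 1) j hj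
  have hat : ∀ i, a + t i • y ∈ L := fun i => L.add_mem ha (L.smul_mem _ hy)
  have hm : ∀ x ∈ L, ∀ i, x * V i ∈ L ^ (c + 1) := by
    intro x hx i
    rw [pow_succ']
    exact Submodule.mul_mem_mul hx (hV i)
  have hay : a ^ (c + 1 - j) * y ^ j ∈ L ^ (c + 1) := by
    have h1 : c + 1 = (c + 1 - j) + j := by omega
    rw [h1, pow_add, ← h1]
    exact Submodule.mul_mem_mul (Submodule.pow_mem_pow L ha _) (Submodule.pow_mem_pow L hy _)
  have hch : (((c + 1).choose j : ℕ) : ℂ) ≠ 0 := Nat.cast_ne_zero.2 (Nat.choose_pos hj).ne'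
  -- extraction in slot one
  have hC1 : ∀ P ∈ L ^ (c + 2), ∀ x ∈ L, cbil φ t k a y V P (x ^ (c + 1)) =
      (((c + 1).choose j : ℕ) : ℂ) *
        φ (Fin.cons P (Fin.cons (a * (a ^ (c + 1 - j) * y ^ j)) (fun l => a * (x * V l)))) := by
    intro P hP x hx
    rw [cbil_apply]
    have h1 : ∀ i, φ (Fin.cons P (Fin.cons (a * x ^ (c + 1))
        (fun l => a * ((a + t i • y) * V l)))) =
        bil φ a (fun l => a * (x * V l)) P ((a + t i • y) ^ (c + 1)) := by
      intro i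
      rw [bil_apply]
      exact e2 hc L φ h P hP a x (a + t i • y) ha hx (hat i) V hV
    simp only [h1]
    rw [extract hj (bil φ a (fun l => a * (x * V l)) P) a y t k htk, bil_apply]
  -- the second value
  have hC2 : ∀ w ∈ L, ∀ z ∈ L, cbil φ t k a y V (z ^ (c + 1 + 1)) (w ^ (c + 1)) =
      - ((((c + 1).choose j : ℕ) : ℂ) *
        bil φ z (fun l => z * (w * V l)) (a ^ (c + 1 + 1)) (a ^ (c + 1 - j) * y ^ j)) := by
    intro w hw z hz
    rw [hC1 _ (Submodule.pow_mem_pow L hz _) w hw, bil_apply]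
    have h1 := e1 hc L φ h z a hz ha
      (Fin.cons (a ^ (c + 1 - j) * y ^ j) (fun l => w * V l)) (by
        intro i
        refine Fin.cases ?_ (fun l => ?_) i
        · exact hay
        · exact hm w hw l)
    rw [mul_cons, mul_cons] at h1
    rw [h1]
    ring
  have hE := eigen L (cbil φ t k a y V) (c + 1) ((-1) ^ (j + 1) * ((c + 1 + 1 - j : ℕ) : ℂ)) (by
    intro m hm h1
    have h2 := congrArg (fun x : ℂ => ‖x‖) h1
    simp only [norm_mul, norm_pow, norm_neg, norm_one, one_pow, one_mul, Complex.norm_natCast] at h2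
    have h3 : c + 1 + 1 - j = c + 1 + 1 - m := by exact_mod_cast h2
    have h4 : j = m := by omega
    subst h4
    have h5 : ((c + 1 + 1 - j : ℕ) : ℂ) ≠ 0 := Nat.cast_ne_zero.2 (by omega)
    have h6 : ((-1 : ℂ)) ^ (j + 1) = (-1) ^ j := mul_right_cancel₀ h5 h1
    rw [pow_succ, mul_neg_one] at h6
    have h7 : ((-1 : ℂ)) ^ j ≠ 0 := pow_ne_zero _ (by norm_num)
    exact h7 (self_eq_neg.1 h6.symm)) (by
    intro w hw z hz
    have hzw : z * w ^ (c + 1) ∈ L ^ (c + 2) := by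
      have h1 : c + 2 = c + 1 + 1 := rfl
      rw [h1, pow_succ' L]
      exact Submodule.mul_mem_mul hz (Submodule.pow_mem_pow L hw _)
    have hP : a * (a ^ (c + 1 - j) * y ^ j) ∈ L ^ (c + 2) := by
      have h1 : c + 2 = c + 1 + 1 := rfl
      rw [h1, pow_succ' L]
      exact Submodule.mul_mem_mul ha hay
    rw [hC1 _ hzw z hz, hC2 w hw z hz, swap01 hs]
    have h1 : (fun l => a * (z * V l)) = fun l => z * (a * V l) := by
      funext l
      ring
    have h2 := e2 hc L φ h _ hP z w a hz hw ha V hV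
    have h3 : a * (a ^ (c + 1 - j) * y ^ j) = a ^ (c + 1 + 1 - j) * y ^ j := by
      have h4 : c + 1 + 1 - j = c + 1 - j + 1 := by omega
      rw [h4, pow_succ]
      ring
    have h4 := hl z hz w hw
    rw [bil_apply, bil_apply] at h4
    rw [h1, h2, h3, bil_apply, pow_succ (-1 : ℂ) j]
    linear_combination (((c + 1).choose j : ℕ) : ℂ) * h4)
  intro z hz w hw
  have h1 := hE z hz w hw
  rw [hC2 w hw z hz, neg_eq_zero] at h1
  exact (mul_eq_zero.1 h1).resolve_left hch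

/-- All the forms of the ladder vanish. -/
theorem theta {c : ℕ} (hc : Odd c) (L : Submodule ℂ A)
    (φ : MultilinearMap ℂ (fun _ : Fin (c + 3) => A) ℂ) (hs : IsSymm φ)
    (h : ∀ l ∈ L, ∀ y : Fin (c + 3) → A, (∀ i, y i ∈ L ^ (c + 1)) → φ (fun i => l * y i) = 0)
    (V : Fin (c + 1) → A) (hV : ∀ l, V l ∈ L ^ c) :
    ∀ j ≤ c + 1, ∀ a ∈ L, ∀ y ∈ L, ∀ z ∈ L, ∀ w ∈ L, ∀ p r, p + r = j →
      bil φ z (fun l => z * (w * V l)) (a ^ (c + 1 + 1 - p) * y ^ p) (a ^ (c + 1 - r) * y ^ r) =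
        0 := by
  intro j
  induction j with
  | zero =>
    intro hj a ha y hy z hz w hw
    have hlev := fun z w : A => level (bil φ z (fun l => z * (w * V l))) a y (Nat.zero_le (c + 1))
      (fun j hj => absurd hj (by omega))
    exact (hlev z w).2 (theta_step hc L φ hs h V hV 0 hj a ha y hy
      (fun z _ w _ => (hlev z w).1) z hz w hw)
  | succ j ih =>
    intro hj a ha y hy z hz w hw
    have hlev := fun (z : A) (hz : z ∈ L) (w : A) (hw : w ∈ L) =>
      level (bil φ z (fun l => z * (w * V l))) a y hj (by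
        intro j' hj' t p r hpr
        have h1 : j' = j := by omega
        subst h1
        exact ih (by omega) (a + t • y) (L.add_mem ha (L.smul_mem t hy)) y hy z hz w hw p r hpr)
    exact (hlev z hz w hw).2 (theta_step hc L φ hs h V hV (j + 1) hj a ha y hy
      (fun z hz w hw => (hlev z hz w hw).1) z hz w hw)

/-- **(K*) for odd degree.** -/
theorem kodd {c : ℕ} (hc : Odd c) (L : Submodule ℂ A)
    (φ : MultilinearMap ℂ (fun _ : Fin (c + 3) => A) ℂ) (hs : IsSymm φ)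
    (h : ∀ l ∈ L, ∀ y : Fin (c + 3) → A, (∀ i, y i ∈ L ^ (c + 1)) → φ (fun i => l * y i) = 0) :
    ∀ P : Fin (c + 3) → A, (∀ i, P i ∈ L ^ (c + 2)) → φ P = 0 := by
  -- the end of the ladder
  have h1 : ∀ a ∈ L, ∀ z ∈ L, ∀ w ∈ L, ∀ V : Fin (c + 1) → A, (∀ l, V l ∈ L ^ c) →
      ∀ R ∈ L ^ (c + 1),
      φ (Fin.cons (a ^ (c + 2)) (Fin.cons (z * R) (fun l => z * (w * V l)))) = 0 := by
    intro a ha z hz w hw V hV
    refine lin_pow_zero L (c + 1) (bil φ z (fun l => z * (w * V l)) (a ^ (c + 2))) ?_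
    intro y hy
    have h2 := theta hc L φ hs h V hV (c + 1) le_rfl a ha y hy z hz w hw 0 (c + 1) (zero_add _)
    rw [Nat.sub_zero, pow_zero, mul_one, Nat.sub_self, pow_zero, one_mul] at h2
    exact h2
  -- the inner slots
  have h2 : ∀ a ∈ L, ∀ z ∈ L, ∀ R ∈ L ^ (c + 1), ∀ T : Fin (c + 1) → A, (∀ l, T l ∈ L ^ (c + 1)) →
      φ (Fin.cons (a ^ (c + 2)) (Fin.cons (z * R) (fun l => z * T l))) = 0 := by
    intro a ha z hz R hR
    let ψ : MultilinearMap ℂ (fun _ : Fin (c + 1) => A) ℂ :=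
      ((φ.curryLeft (a ^ (c + 2))).curryLeft (z * R)).compLinearMap (fun _ => LinearMap.mulLeft ℂ z)
    exact plem L (fun _ : Fin (c + 1) => c + 1) (fun i => by omega) ψ (by
      intro w hw v hv
      exact h1 a ha z hz w hw v (by simpa using hv) R hR)
  -- the slots `≥ 1`
  have h3 : ∀ a ∈ L, ∀ X : Fin (c + 2) → A, (∀ l, X l ∈ L ^ (c + 2)) →
      φ (Fin.cons (a ^ (c + 2)) X) = 0 := by
    intro a ha
    exact plem L (fun _ : Fin (c + 2) => c + 2) (fun i => by omega) (φ.curryLeft (a ^ (c + 2))) (by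
      intro z hz v hv
      have h4 := h2 a ha z hz (v 0) (by simpa using hv 0) (fun l => v l.succ)
        (by intro l; simpa using hv l.succ)
      rw [← mul_cons] at h4
      have h5 : (Fin.cons (v 0) (fun l => v l.succ) : Fin (c + 2) → A) = v :=
        Fin.cons_self_tail v
      rw [h5] at h4
      exact h4)
  intro P hP
  have h4 := lin_pow_zero L (c + 2) (lin0 φ (fun l => P l.succ)) (by
    intro a ha
    exact h3 a ha _ (fun l => hP _)) (P 0) (hP 0)
  have h5 : (Fin.cons (P 0) (fun l => P l.succ) : Fin (c + 3) → A) = P := Fin.cons_self_tail P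
  rw [lin0_apply, h5] at h4
  exact h4

end Vale.Agent.P181.H394
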