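import Mathlib.Data.Fin.Tuple.Sort
import Vale.Agent.P181.H280.Core

set_option autoImplicit false

namespace Vale.Agent.P181.H394

open Vale.Agent.P181 Vale.Agent.P181.H280 Finset

variable {A : Type*} [CommRing A] [Algebra ℂ A]

/-- **The P-lemma with unequal degrees.** -/
theorem plem (L : Submodule ℂ A) {p : ℕ} (d : Fin p → ℕ) (hd : ∀ i : Fin p, (i : ℕ) + 1 ≤ d i)
    (ψ : MultilinearMap ℂ (fun _ : Fin p => A) ℂ)
    (h : ∀ w ∈ L, ∀ v : Fin p → A, (∀ i, v i ∈ L ^ (d i - 1)) → ψ (fun i => w * v i) = 0) :
    ∀ P : Fin p → A, (∀ i, P i ∈ L ^ d i) → ψ P = 0 := by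
  refine claimA L ψ d (fun _ => 1) ?_ ?_
  · intro j
    rw [Finset.sum_const, smul_eq_mul, mul_one, Fin.card_Iic]
    exact hd j
  · intro ξ hξ P hP
    simp only [pow_one]
    exact h ξ hξ P hP

variable {κ : Type*} [Fintype κ] [DecidableEq κ]

/-- A multilinear form restricted to the slots listed by `g`, the other slots being fixed. -/
noncomputable def resM {p : ℕ} (φ : MultilinearMap ℂ (fun _ : κ => A) ℂ) (g : Fin p ↪ κ) (Q : κ → A) :
    MultilinearMap ℂ (fun _ : Fin p => A) ℂ where
  toFun P := φ (Function.extend g P Q)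
  map_update_add' := by
    intro _ P i x y
    have key : ∀ z : A, Function.extend g (Function.update P i z) Q =
        Function.update (Function.extend g P Q) (g i) z := by
      intro z
      funext k
      by_cases hk : ∃ j, g j = k
      · obtain ⟨j, rfl⟩ := hk
        rw [g.injective.extend_apply]
        by_cases hj : j = i
        · subst hj
          simp only [Function.update_self]
        · have hj' : g j ≠ g i := fun h => hj (g.injective h)
          simp only [Function.update_of_ne hj, Function.update_of_ne hj',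
            g.injective.extend_apply]
      · rw [Function.extend_apply' _ _ _ hk, Function.update_of_ne (fun h => hk ⟨i, h.symm⟩),
          Function.extend_apply' _ _ _ hk]
    rw [key, key, key, MultilinearMap.map_update_add]
  map_update_smul' := by
    intro _ P i c x
    have key : ∀ z : A, Function.extend g (Function.update P i z) Q =
        Function.update (Function.extend g P Q) (g i) z := by
      intro z
      funext k
      by_cases hk : ∃ j, g j = k
      · obtain ⟨j, rfl⟩ := hk
        rw [g.injective.extend_apply]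
        by_cases hj : j = i
        · subst hj
          simp only [Function.update_self]
        · have hj' : g j ≠ g i := fun h => hj (g.injective h)
          simp only [Function.update_of_ne hj, Function.update_of_ne hj',
            g.injective.extend_apply]
      · rw [Function.extend_apply' _ _ _ hk, Function.update_of_ne (fun h => hk ⟨i, h.symm⟩),
          Function.extend_apply' _ _ _ hk]
    rw [key, key, MultilinearMap.map_update_smul]

lemma resM_apply {p : ℕ} (φ : MultilinearMap ℂ (fun _ : κ => A) ℂ) (g : Fin p ↪ κ) (Q : κ → A)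
    (P : Fin p → A) : resM φ g Q P = φ (Function.extend g P Q) := rfl

/-- The P-lemma for some of the slots, listed by `g`. -/
theorem plem_emb (L : Submodule ℂ A) {p : ℕ} (φ : MultilinearMap ℂ (fun _ : κ => A) ℂ)
    (g : Fin p ↪ κ) (d : κ → ℕ) (hd : ∀ i : Fin p, (i : ℕ) + 1 ≤ d (g i)) (Q : κ → A)
    (h : ∀ w ∈ L, ∀ v : κ → A, (∀ i, v (g i) ∈ L ^ (d (g i) - 1)) →
      (∀ x, x ∉ Set.range g → v x = Q x) →
      φ (fun x => if x ∈ Set.range g then w * v x else v x) = 0)
    (P : κ → A) (hP : ∀ i, P (g i) ∈ L ^ d (g i)) (hPQ : ∀ x, x ∉ Set.range g → P x = Q x) :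
    φ P = 0 := by
  classical
  have h1 := plem L (fun i => d (g i)) hd (resM φ g Q) ?_ (fun i => P (g i)) hP
  · rw [resM_apply] at h1
    rw [← h1]
    congr 1
    funext x
    by_cases hx : x ∈ Set.range g
    · obtain ⟨i, rfl⟩ := hx
      rw [g.injective.extend_apply]
    · rw [Function.extend_apply' _ _ _ hx, hPQ x hx]
  · intro w hw v hv
    have h2 := h w hw (Function.extend g v Q) (by
      intro i
      rw [g.injective.extend_apply]
      exact hv i) (by
      intro x hx
      exact Function.extend_apply' _ _ _ hx)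
    rw [resM_apply, ← h2]
    congr 1
    funext x
    by_cases hx : x ∈ Set.range g
    · rw [if_pos hx]
      obtain ⟨i, rfl⟩ := hx
      rw [g.injective.extend_apply, g.injective.extend_apply]
    · rw [if_neg hx, Function.extend_apply' _ _ _ hx, Function.extend_apply' _ _ _ hx]

/-- **The P-lemma for the slots in `S`**: a form which dies when all slots in `S` are divisible by the
same linear form `w` (the others being fixed) is zero, if for every `m` at most `m` of the slots in
`S` have degree at most `m`. -/
theorem plem_set (L : Submodule ℂ A) (φ : MultilinearMap ℂ (fun _ : κ => A) ℂ)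
    (S : Finset κ) (d : κ → ℕ) (hd : ∀ m, (S.filter (fun x => d x ≤ m)).card ≤ m) (Q : κ → A)
    (h : ∀ w ∈ L, ∀ v : κ → A, (∀ x ∈ S, v x ∈ L ^ (d x - 1)) → (∀ x, x ∉ S → v x = Q x) →
      φ (fun x => if x ∈ S then w * v x else v x) = 0)
    (P : κ → A) (hP : ∀ x ∈ S, P x ∈ L ^ d x) (hPQ : ∀ x, x ∉ S → P x = Q x) : φ P = 0 := by
  classical
  -- list `S` by increasing degree
  let e0 : Fin S.card ≃ S := S.equivFin.symm
  let f : Fin S.card → ℕ := fun i => d (e0 i)
  let π := Tuple.sort f
  have hmono : Monotone (f ∘ π) := Tuple.monotone_sort f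
  let g : Fin S.card ↪ κ :=
    ⟨fun i => (e0 (π i) : κ), fun i j hij => π.injective (e0.injective (Subtype.ext hij))⟩
  have hgS : ∀ i, g i ∈ S := fun i => (e0 (π i)).2
  have hrange : ∀ x, x ∈ Set.range g ↔ x ∈ S := by
    intro x
    constructor
    · rintro ⟨i, rfl⟩
      exact hgS i
    · intro hx
      refine ⟨π.symm (e0.symm ⟨x, hx⟩), ?_⟩
      change ((e0 (π (π.symm (e0.symm ⟨x, hx⟩))) : S) : κ) = x
      rw [Equiv.apply_symm_apply, Equiv.apply_symm_apply]
  have hdg : ∀ i : Fin S.card, (i : ℕ) + 1 ≤ d (g i) := by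
    intro i
    have h1 : (Finset.Iic i).card ≤ (S.filter (fun x => d x ≤ d (g i))).card := by
      apply Finset.card_le_card_of_injOn g
      · intro j hj
        rw [Finset.mem_coe, Finset.mem_Iic] at hj
        rw [Finset.mem_coe, Finset.mem_filter]
        exact ⟨hgS j, hmono hj⟩
      · exact fun x _ y _ hxy => g.injective hxy
    rw [Fin.card_Iic] at h1
    exact h1.trans (hd _)
  refine plem_emb L φ g d hdg Q ?_ P (fun i => hP _ (hgS i)) (fun x hx => hPQ x
    (fun h' => hx ((hrange x).2 h')))
  intro w hw v hv hvQ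
  have h1 := h w hw v (by
    intro x hx
    obtain ⟨i, rfl⟩ := (hrange x).2 hx
    exact hv i) (fun x hx => hvQ x (fun h' => hx ((hrange x).1 h')))
  rw [← h1]
  congr 1
  funext x
  by_cases hx : x ∈ S
  · rw [if_pos hx, if_pos ((hrange x).2 hx)]
  · rw [if_neg hx, if_neg (fun h' => hx ((hrange x).1 h'))]

/-- The case used for the hybrid maps: one slot of degree at least `|S|`, the others of degree at least
`|S| - 1`. -/
theorem plem_one (L : Submodule ℂ A) (φ : MultilinearMap ℂ (fun _ : κ => A) ℂ)
    (S : Finset κ) (d : κ → ℕ) (x0 : κ) (hx0 : x0 ∈ S) (hd0 : S.card ≤ d x0)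
    (hd : ∀ x ∈ S, S.card ≤ d x + 1) (Q : κ → A)
    (h : ∀ w ∈ L, ∀ v : κ → A, (∀ x ∈ S, v x ∈ L ^ (d x - 1)) → (∀ x, x ∉ S → v x = Q x) →
      φ (fun x => if x ∈ S then w * v x else v x) = 0)
    (P : κ → A) (hP : ∀ x ∈ S, P x ∈ L ^ d x) (hPQ : ∀ x, x ∉ S → P x = Q x) : φ P = 0 := by
  refine plem_set L φ S d ?_ Q h P hP hPQ
  intro m
  by_cases hm : S.card ≤ m
  · exact (Finset.card_filter_le _ _).trans hm
  · by_cases hm2 : S.card ≤ m + 1
    · have h1 : S.filter (fun x => d x ≤ m) ⊆ S.erase x0 := by
        intro x hx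
        rw [Finset.mem_filter] at hx
        rw [Finset.mem_erase]
        refine ⟨?_, hx.1⟩
        rintro rfl
        omega
      have h2 := Finset.card_le_card h1
      rw [Finset.card_erase_of_mem hx0] at h2
      omega
    · have h1 : S.filter (fun x => d x ≤ m) = ∅ := by
        rw [Finset.filter_eq_empty_iff]
        intro x hx hxm
        have := hd x hx
        omega
      rw [h1, Finset.card_empty]
      exact Nat.zero_le _

end Vale.Agent.P181.H394
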