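import Vale.Agent.P181.H907.Y
import Vale.Agent.P181.H394.PLem
import Vale.Agent.P181.H270.Place

set_option autoImplicit false
set_option linter.unusedSectionVars false

/-!
# Ladder lemmas for bilinear forms, exchange identity, interpolation
-/

namespace Vale.Agent.P181.H394

open Vale.Agent.P181 Vale.Agent.P181.H280 Finset

variable {A : Type*} [CommRing A] [Algebra ℂ A]

/-- The exchange identity. -/
lemma exch (L : Submodule ℂ A) {e : ℕ} (ψ : MultilinearMap ℂ (fun _ : Fin (e + 2) => A) ℂ)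
    (hQ : ∀ w ∈ L, ∀ g ∈ L ^ e, ∀ v : Fin (e + 1) → A, (∀ i, v i ∈ L ^ e) →
      ψ (Fin.cons (w * g) (fun i => w * v i)) = 0)
    (u w : A) (hu : u ∈ L) (hw : w ∈ L) (v : Fin (e + 1) → A) (hv : ∀ i, v i ∈ L ^ e) :
    ψ (Fin.cons (u ^ (e + 1)) (fun i => w * v i)) =
      (-1) ^ (e + 1) * ψ (Fin.cons (w ^ (e + 1)) (fun i => u * v i)) := by
  obtain ⟨p, hp, hp0, -⟩ := H907.line_poly (ψ.curryLeft (w ^ (e + 1))) (fun i => u * v i)
    (fun i => w * v i)
  obtain ⟨q, hq, -, hqc⟩ := H907.line_poly (ψ.curryLeft (u ^ (e + 1))) (fun i => u * v i)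
    (fun i => w * v i)
  simp only [MultilinearMap.curryLeft_apply] at hp hp0 hq hqc
  have hstep : ∀ t : ℂ, ∀ k ≤ e + 1,
      ψ (Fin.cons (u ^ (e + 1)) (fun i => u * v i + t • (w * v i))) =
      (-t) ^ k * ψ (Fin.cons (w ^ k * u ^ (e + 1 - k)) (fun i => u * v i + t • (w * v i))) := by
    intro t k
    induction k with
    | zero =>
      intro _
      simp
    | succ k ih =>
      intro hk
      rw [ih (by omega)]
      obtain ⟨c, hc⟩ : ∃ c, e = k + c := ⟨e - k, by omega⟩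
      have h1 : e + 1 - k = c + 1 := by omega
      have h2 : e + 1 - (k + 1) = c := by omega
      rw [h1, h2]
      have h3 : (fun i => u * v i + t • (w * v i)) = fun i => (u + t • w) * v i := by
        funext i
        rw [add_mul, smul_mul_assoc]
      have h4 := hQ (u + t • w) (L.add_mem hu (L.smul_mem t hw)) (w ^ k * u ^ c) (by
        rw [hc, pow_add]
        exact Submodule.mul_mem_mul (Submodule.pow_mem_pow L hw k) (Submodule.pow_mem_pow L hu c))
        v hv
      rw [← h3] at h4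
      have h5 : (u + t • w) * (w ^ k * u ^ c) =
          w ^ k * u ^ (c + 1) + t • (w ^ (k + 1) * u ^ c) := by
        rw [add_mul, smul_mul_assoc]
        congr 1
        · ring
        · congr 1
          ring
      rw [h5, MultilinearMap.cons_add, MultilinearMap.cons_smul, smul_eq_mul] at h4
      have h6 : (-t) ^ (k + 1) = (-t) ^ k * (-t) := pow_succ _ _
      rw [h6]
      linear_combination ((-t) ^ k) * h4
  have hpoly : q = Polynomial.C ((-1) ^ (e + 1)) * Polynomial.X ^ (e + 1) * p := by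
    apply Polynomial.funext
    intro t
    rw [hq, hstep t (e + 1) le_rfl]
    simp only [Polynomial.eval_mul, Polynomial.eval_C, Polynomial.eval_pow, Polynomial.eval_X, hp,
      Nat.sub_self, pow_zero, mul_one]
    rw [← mul_pow]
    congr 2
    ring
  rw [Fintype.card_fin, hpoly, mul_assoc, Polynomial.coeff_C_mul, Polynomial.coeff_X_pow_mul',
    if_pos le_rfl, Nat.sub_self, hp0] at hqc
  exact hqc.symm

/-- A linear form vanishing on the powers vanishes. -/
lemma lin_pow_zero (L : Submodule ℂ A) (n : ℕ) (f : A →ₗ[ℂ] ℂ) (h : ∀ x ∈ L, f (x ^ n) = 0) :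
    ∀ P ∈ L ^ n, f P = 0 := by
  have h1 : ∀ y : Fin n → A, (∀ i, y i ∈ L) → f (∏ i, y i) = 0 := by
    intro y hy
    have h2 := polar (f.compMultilinearMap (MultilinearMap.mkPiAlgebra ℂ (Fin n) A)) L (by
      intro x hx
      rw [LinearMap.compMultilinearMap_apply, MultilinearMap.mkPiAlgebra_apply, Finset.prod_const,
        Finset.card_univ, Fintype.card_fin]
      exact h x hx) y hy
    simp only [LinearMap.compMultilinearMap_apply, MultilinearMap.mkPiAlgebra_apply] at h2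
    have h3 : ∀ π : Equiv.Perm (Fin n), ∏ i, y (π i) = ∏ i, y i := fun π => Equiv.prod_comp π y
    simp only [h3, Finset.sum_const, nsmul_eq_mul] at h2
    refine (mul_eq_zero.1 h2).resolve_left (Nat.cast_ne_zero.2 ?_)
    rw [Finset.card_univ]
    exact Fintype.card_ne_zero
  intro P hP
  have h2 := H270.pow_eq_span L n hP
  refine Submodule.span_induction (p := fun x _ => f x = 0) ?_ ?_ ?_ ?_ h2
  · rintro _ ⟨u, hu, rfl⟩
    exact h1 u hu
  · exact map_zero f
  · intro x y _ _ hx hy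
    rw [map_add, hx, hy, add_zero]
  · intro t x _ hx
    rw [map_smul, hx, smul_zero]

/-- A linear form vanishing on `(w + s z)^N` vanishes on the products. -/
lemma lin_line_zero (f : A →ₗ[ℂ] ℂ) (w z : A) (N : ℕ) (h : ∀ s : ℂ, f ((w + s • z) ^ N) = 0)
    (m : ℕ) (hm : m ≤ N) : f (w ^ m * z ^ (N - m)) = 0 := by
  let p : Polynomial ℂ := ∑ k ∈ range (N + 1),
    Polynomial.C ((N.choose k : ℂ) * f (w ^ (N - k) * z ^ k)) * Polynomial.X ^ k
  have hp : p = 0 := by
    apply Polynomial.funext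
    intro s
    rw [Polynomial.eval_zero, ← h s, add_comm w, add_pow, map_sum]
    simp only [p, Polynomial.eval_finsetSum, Polynomial.eval_mul, Polynomial.eval_C,
      Polynomial.eval_pow, Polynomial.eval_X]
    apply Finset.sum_congr rfl
    intro k _
    have h1 : (s • z) ^ k * w ^ (N - k) * (N.choose k : A) =
        ((N.choose k : ℂ) * s ^ k) • (w ^ (N - k) * z ^ k) := by
      rw [smul_pow, Algebra.smul_def, Algebra.smul_def, map_mul, map_natCast]
      ring
    rw [h1, map_smul, smul_eq_mul]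
    ring
  have h2 := congrArg (fun q => q.coeff (N - m)) hp
  simp only [p, Polynomial.finsetSum_coeff, Polynomial.coeff_C_mul, Polynomial.coeff_X_pow,
    Polynomial.coeff_zero, mul_ite, mul_one, mul_zero] at h2
  rw [Finset.sum_ite_eq, if_pos (by rw [Finset.mem_range]; omega)] at h2
  have h3 : N - (N - m) = m := by omega
  rw [h3] at h2
  refine (mul_eq_zero.1 h2).resolve_left (Nat.cast_ne_zero.2 ?_)
  exact (Nat.choose_pos (Nat.sub_le _ _)).ne'

/-- The first-order term of a bilinear form along a line. -/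
lemma bil_first (B : A →ₗ[ℂ] A →ₗ[ℂ] ℂ) (z w x y : A) (i j : ℕ)
    (h : ∀ t : ℂ, B ((z + t • w) ^ (i + 1) * x) ((z + t • w) ^ (j + 1) * y) = 0) :
    ((i + 1 : ℕ) : ℂ) * B (z ^ i * (w * x)) (z ^ (j + 1) * y) +
      ((j + 1 : ℕ) : ℂ) * B (z ^ (i + 1) * x) (z ^ j * (w * y)) = 0 := by
  let α : ℕ → A := fun k => (((i + 1).choose k : ℕ) : ℂ) • (w ^ k * z ^ (i + 1 - k) * x)
  let β : ℕ → A := fun k => (((j + 1).choose k : ℕ) : ℂ) • (w ^ k * z ^ (j + 1 - k) * y)
  let p : Polynomial ℂ := ∑ k ∈ range (i + 2), ∑ l ∈ range (j + 2),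
    Polynomial.C (B (α k) (β l)) * Polynomial.X ^ (k + l)
  have hα : ∀ t : ℂ, (z + t • w) ^ (i + 1) * x = ∑ k ∈ range (i + 2), (t ^ k) • α k := by
    intro t
    rw [add_comm z, add_pow, Finset.sum_mul]
    apply Finset.sum_congr rfl
    intro k _
    simp only [α]
    rw [smul_pow, smul_smul, Algebra.smul_def, Algebra.smul_def, map_mul, map_natCast]
    ring
  have hβ : ∀ t : ℂ, (z + t • w) ^ (j + 1) * y = ∑ k ∈ range (j + 2), (t ^ k) • β k := by
    intro t
    rw [add_comm z, add_pow, Finset.sum_mul]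
    apply Finset.sum_congr rfl
    intro k _
    simp only [β]
    rw [smul_pow, smul_smul, Algebra.smul_def, Algebra.smul_def, map_mul, map_natCast]
    ring
  have hp : p = 0 := by
    apply Polynomial.funext
    intro t
    rw [Polynomial.eval_zero, ← h t, hα t, map_sum B, LinearMap.sum_apply]
    simp only [p, Polynomial.eval_finsetSum, Polynomial.eval_mul, Polynomial.eval_C,
      Polynomial.eval_pow, Polynomial.eval_X]
    apply Finset.sum_congr rfl
    intro k _
    rw [hβ t, map_sum]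
    apply Finset.sum_congr rfl
    intro l _
    generalize α k = u
    generalize β l = v
    rw [map_smul, map_smul, LinearMap.smul_apply, smul_eq_mul, smul_eq_mul, pow_add]
    ring
  have h2 := congrArg (fun q => q.coeff 1) hp
  simp only [p, Polynomial.finsetSum_coeff, Polynomial.coeff_C_mul, Polynomial.coeff_X_pow,
    Polynomial.coeff_zero, mul_ite, mul_one, mul_zero] at h2
  rw [Finset.sum_range_succ', Finset.sum_range_succ'] at h2
  have h3 : ∑ k ∈ range i, ∑ l ∈ range (j + 2), (if 1 = k + 1 + 1 + l then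
      B (α (k + 1 + 1)) (β l) else 0) = 0 := by
    apply Finset.sum_eq_zero
    intro k _
    apply Finset.sum_eq_zero
    intro l _
    rw [if_neg (by omega)]
  have h4 : ∑ l ∈ range (j + 2), (if 1 = 0 + 1 + l then B (α (0 + 1)) (β l) else 0) =
      B (α 1) (β 0) := by
    rw [Finset.sum_eq_single 0]
    · rw [if_pos (by omega)]
    · intro l _ hl
      rw [if_neg (by omega)]
    · intro hl
      exact absurd (Finset.mem_range.2 (by omega)) hl
  have h5 : ∑ l ∈ range (j + 2), (if 1 = 0 + l then B (α 0) (β l) else 0) =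
      B (α 0) (β 1) := by
    rw [Finset.sum_eq_single 1]
    · rw [if_pos (by omega)]
    · intro l _ hl
      rw [if_neg (by omega)]
    · intro hl
      exact absurd (Finset.mem_range.2 (by omega)) hl
  rw [h3, h4, h5, zero_add] at h2
  have h6 : α 1 = ((i + 1 : ℕ) : ℂ) • (z ^ i * (w * x)) := by
    simp only [α, Nat.choose_one_right, pow_one, Nat.add_sub_cancel]
    congr 1
    ring
  have h7 : α 0 = z ^ (i + 1) * x := by
    simp only [α, Nat.choose_zero_right, Nat.cast_one, one_smul, pow_zero, one_mul, Nat.sub_zero]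
  have h8 : β 1 = ((j + 1 : ℕ) : ℂ) • (z ^ j * (w * y)) := by
    simp only [β, Nat.choose_one_right, pow_one, Nat.add_sub_cancel]
    congr 1
    ring
  have h9 : β 0 = z ^ (j + 1) * y := by
    simp only [β, Nat.choose_zero_right, Nat.cast_one, one_smul, pow_zero, one_mul, Nat.sub_zero]
  rw [h6, h7, h8, h9, map_smul, map_smul, LinearMap.smul_apply, smul_eq_mul, smul_eq_mul] at h2
  exact h2

/-- The closed form of the ladder. -/
lemma chain {n m : ℕ} (hm : m ≤ n) (f : ℕ → ℂ)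
    (h : ∀ p, p < m → ((n + 1 - p : ℕ) : ℂ) * f (p + 1) + ((n + 1 - m + p : ℕ) : ℂ) * f p = 0) :
    (((n + 1 : ℕ) : ℂ) * f m = (-1) ^ m * ((n + 1 - m : ℕ) : ℂ) * f 0) ∧
      (f 0 = 0 → ∀ p ≤ m, f p = 0) := by
  have h1 : ∀ p ≤ m, (((n + 1).choose p : ℕ) : ℂ) * f p =
      (-1) ^ p * (((n - m + p).choose p : ℕ) : ℂ) * f 0 := by
    intro p
    induction p with
    | zero =>
      intro _
      simp
    | succ p ih =>
      intro hp
      have ih' := ih (by omega)
      have h2 := h p (by omega)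
      have h3 : (((n + 1).choose (p + 1) : ℕ) : ℂ) * ((p + 1 : ℕ) : ℂ) =
          (((n + 1).choose p : ℕ) : ℂ) * ((n + 1 - p : ℕ) : ℂ) := by
        rw [← Nat.cast_mul, ← Nat.cast_mul, Nat.choose_succ_right_eq]
      have h4 : ((n - m + p + 1 : ℕ) : ℂ) * (((n - m + p).choose p : ℕ) : ℂ) =
          (((n - m + (p + 1)).choose (p + 1) : ℕ) : ℂ) * ((p + 1 : ℕ) : ℂ) := by
        rw [← Nat.cast_mul, ← Nat.cast_mul]
        congr 1
        exact Nat.add_one_mul_choose_eq _ _
      have h5 : (n + 1 - m + p : ℕ) = n - m + p + 1 := by omega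
      rw [h5] at h2
      have h6 : ((p + 1 : ℕ) : ℂ) ≠ 0 := Nat.cast_ne_zero.2 (by omega)
      apply mul_left_cancel₀ h6
      calc ((p + 1 : ℕ) : ℂ) * ((((n + 1).choose (p + 1) : ℕ) : ℂ) * f (p + 1))
          = ((((n + 1).choose (p + 1) : ℕ) : ℂ) * ((p + 1 : ℕ) : ℂ)) * f (p + 1) := by ring
        _ = (((n + 1).choose p : ℕ) : ℂ) * (((n + 1 - p : ℕ) : ℂ) * f (p + 1)) := by
          rw [h3]; ring
        _ = - ((n - m + p + 1 : ℕ) : ℂ) * ((((n + 1).choose p : ℕ) : ℂ) * f p) := by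
          have h7 : ((n + 1 - p : ℕ) : ℂ) * f (p + 1) = - (((n - m + p + 1 : ℕ) : ℂ) * f p) := by
            linear_combination h2
          rw [h7]
          ring
        _ = - ((n - m + p + 1 : ℕ) : ℂ) * ((-1) ^ p * (((n - m + p).choose p : ℕ) : ℂ) * f 0) := by
          rw [ih']
        _ = (-1) ^ (p + 1) * (((n - m + p + 1 : ℕ) : ℂ) *
            (((n - m + p).choose p : ℕ) : ℂ)) * f 0 := by ring
        _ = ((p + 1 : ℕ) : ℂ) *
            ((-1) ^ (p + 1) * (((n - m + (p + 1)).choose (p + 1) : ℕ) : ℂ) * f 0) := by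
          rw [h4]; ring
  constructor
  · have h2 := h1 m le_rfl
    have h3 : n - m + m = n := by omega
    rw [h3] at h2
    have h4 : (((n + 1).choose m : ℕ) : ℂ) * ((n + 1 - m : ℕ) : ℂ) =
        ((n + 1 : ℕ) : ℂ) * ((n.choose m : ℕ) : ℂ) := by
      rw [← Nat.cast_mul, ← Nat.cast_mul]
      congr 1
      have h5 := Nat.choose_mul_succ_eq n m
      rw [mul_comm (n + 1), h5]
    have h5 : (((n + 1).choose m : ℕ) : ℂ) ≠ 0 :=
      Nat.cast_ne_zero.2 (Nat.choose_pos (by omega)).ne'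
    apply mul_left_cancel₀ h5
    calc (((n + 1).choose m : ℕ) : ℂ) * (((n + 1 : ℕ) : ℂ) * f m)
        = ((n + 1 : ℕ) : ℂ) * ((((n + 1).choose m : ℕ) : ℂ) * f m) := by ring
      _ = (-1) ^ m * (((n + 1 : ℕ) : ℂ) * ((n.choose m : ℕ) : ℂ)) * f 0 := by rw [h2]; ring
      _ = (((n + 1).choose m : ℕ) : ℂ) * ((-1) ^ m * ((n + 1 - m : ℕ) : ℂ) * f 0) := by
        rw [← h4]; ring
  · intro h0 p hp
    have h2 := h1 p hp
    rw [h0, mul_zero] at h2
    exact (mul_eq_zero.1 h2).resolve_left (Nat.cast_ne_zero.2 (Nat.choose_pos (by omega)).ne')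

/-- One level of the ladder of a bilinear form. -/
lemma level (B : A →ₗ[ℂ] A →ₗ[ℂ] ℂ) (z w : A) {n m : ℕ} (hm : m ≤ n)
    (h : ∀ j, m = j + 1 → ∀ t : ℂ, ∀ p r, p + r = j →
      B ((z + t • w) ^ (n + 1 - p) * w ^ p) ((z + t • w) ^ (n - r) * w ^ r) = 0) :
    (((n + 1 : ℕ) : ℂ) * B (z ^ (n + 1 - m) * w ^ m) (z ^ n) =
      (-1) ^ m * ((n + 1 - m : ℕ) : ℂ) * B (z ^ (n + 1)) (z ^ (n - m) * w ^ m)) ∧
      (B (z ^ (n + 1)) (z ^ (n - m) * w ^ m) = 0 → ∀ p r, p + r = m →
        B (z ^ (n + 1 - p) * w ^ p) (z ^ (n - r) * w ^ r) = 0) := by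
  have h1 := chain hm (fun p => B (z ^ (n + 1 - p) * w ^ p) (z ^ (n - (m - p)) * w ^ (m - p))) (by
    intro p hp
    have h2 := bil_first B z w (w ^ p) (w ^ (m - 1 - p)) (n - p) (n - (m - p)) (by
      intro t
      have h3 := h (m - 1) (by omega) t p (m - 1 - p) (by omega)
      have h4 : n + 1 - p = n - p + 1 := by omega
      have h5 : n - (m - 1 - p) = n - (m - p) + 1 := by omega
      rw [h4, h5] at h3
      exact h3)
    have h4 : n + 1 - p = n - p + 1 := by omega
    have h5 : n + 1 - (p + 1) = n - p := by omega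
    have h6 : m - (p + 1) = m - 1 - p := by omega
    have h7 : n - (m - 1 - p) = n - (m - p) + 1 := by omega
    have h8 : n + 1 - m + p = n - (m - p) + 1 := by omega
    have h9 : m - p = m - 1 - p + 1 := by omega
    show ((n + 1 - p : ℕ) : ℂ) * B (z ^ (n + 1 - (p + 1)) * w ^ (p + 1))
      (z ^ (n - (m - (p + 1))) * w ^ (m - (p + 1))) + ((n + 1 - m + p : ℕ) : ℂ) *
      B (z ^ (n + 1 - p) * w ^ p) (z ^ (n - (m - p)) * w ^ (m - p)) = 0
    rw [h5, h6, h7, h8, h4]
    have h10 : w ^ (p + 1) = w * w ^ p := pow_succ' _ _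
    have h11 : w ^ (m - p) = w * w ^ (m - 1 - p) := by
      conv_lhs => rw [h9]
      exact pow_succ' _ _
    rw [h10, h11]
    exact h2)
  obtain ⟨h2, h3⟩ := h1
  simp only [Nat.sub_self, Nat.sub_zero, pow_zero, mul_one] at h2 h3
  refine ⟨h2, ?_⟩
  intro h0 p r hpr
  have h4 := h3 h0 p (by omega)
  have h5 : m - p = r := by omega
  rw [h5] at h4
  exact h4

/-- The eigenvalue lemma. -/
theorem eigen (L : Submodule ℂ A) (B : A →ₗ[ℂ] A →ₗ[ℂ] ℂ) (n : ℕ) (μ : ℂ)
    (hμ : ∀ m ≤ n, μ ≠ (-1) ^ m * ((n + 1 - m : ℕ) : ℂ))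
    (h : ∀ w ∈ L, ∀ z ∈ L, ((n + 1 : ℕ) : ℂ) * B (z * w ^ n) (z ^ n) =
      μ * B (z ^ (n + 1)) (w ^ n)) :
    ∀ z ∈ L, ∀ w ∈ L, B (z ^ (n + 1)) (w ^ n) = 0 := by
  have h1 : ∀ m ≤ n, ∀ z ∈ L, ∀ w ∈ L, ((n + 1 : ℕ) : ℂ) * B (z ^ (n + 1 - m) * w ^ m) (z ^ n) =
      μ * B (z ^ (n + 1)) (z ^ (n - m) * w ^ m) := by
    intro m hm z hz w hw
    let f : A →ₗ[ℂ] ℂ := ((n + 1 : ℕ) : ℂ) • ((B.flip (z ^ n)).comp (LinearMap.mulLeft ℂ z)) -
      μ • (B (z ^ (n + 1)))
    have hf : ∀ X, f X = ((n + 1 : ℕ) : ℂ) * B (z * X) (z ^ n) - μ * B (z ^ (n + 1)) X := by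
      intro X
      rfl
    have h2 := lin_line_zero f w z n (by
      intro s
      rw [hf, h (w + s • z) (L.add_mem hw (L.smul_mem s hz)) z hz, sub_self]) m hm
    rw [hf] at h2
    have h3 : z * (w ^ m * z ^ (n - m)) = z ^ (n + 1 - m) * w ^ m := by
      have h4 : n + 1 - m = n - m + 1 := by omega
      rw [h4, pow_succ]
      ring
    rw [h3, mul_comm (w ^ m) (z ^ (n - m))] at h2
    exact sub_eq_zero.1 h2
  have h2 : ∀ m ≤ n, ∀ z ∈ L, ∀ w ∈ L, ∀ p r, p + r = m →
      B (z ^ (n + 1 - p) * w ^ p) (z ^ (n - r) * w ^ r) = 0 := by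
    intro m
    induction m with
    | zero =>
      intro _ z hz w hw
      obtain ⟨h3, h4⟩ := level B z w (Nat.zero_le n) (fun j hj => absurd hj (by omega))
      apply h4
      have h5 := h1 0 (Nat.zero_le n) z hz w hw
      rw [h3] at h5
      have h6 := hμ 0 (Nat.zero_le n)
      have h7 : (((-1) ^ 0 * ((n + 1 - 0 : ℕ) : ℂ)) - μ) *
          B (z ^ (n + 1)) (z ^ (n - 0) * w ^ 0) = 0 := by
        rw [sub_mul, h5, sub_self]
      exact (mul_eq_zero.1 h7).resolve_left (sub_ne_zero.2 (Ne.symm h6))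
    | succ m ih =>
      intro hm z hz w hw
      obtain ⟨h3, h4⟩ := level B z w hm (by
        intro j hj t p r hpr
        have hj' : j = m := by omega
        subst hj'
        exact ih (by omega) (z + t • w) (L.add_mem hz (L.smul_mem t hw)) w hw p r hpr)
      apply h4
      have h5 := h1 (m + 1) hm z hz w hw
      rw [h3] at h5
      have h6 := hμ (m + 1) hm
      have h7 : (((-1) ^ (m + 1) * ((n + 1 - (m + 1) : ℕ) : ℂ)) - μ) *
          B (z ^ (n + 1)) (z ^ (n - (m + 1)) * w ^ (m + 1)) = 0 := by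
        rw [sub_mul, h5, sub_self]
      exact (mul_eq_zero.1 h7).resolve_left (sub_ne_zero.2 (Ne.symm h6))
  intro z hz w hw
  have h3 := h2 n le_rfl z hz w hw 0 n (zero_add n)
  rw [Nat.sub_zero, pow_zero, mul_one, Nat.sub_self, pow_zero, one_mul] at h3
  exact h3

/-- Interpolation: weights which extract a coefficient. -/
lemma interp (n j : ℕ) (hj : j ≤ n) : ∃ t c : Fin (n + 1) → ℂ,
    ∀ k ≤ n, ∑ i, c i * t i ^ k = if k = j then 1 else 0 := by
  let t : Fin (n + 1) → ℂ := fun i => ((i : ℕ) : ℂ)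
  have hinj : Function.Injective t := by
    intro a b h
    exact Fin.ext (Nat.cast_injective h)
  have hdet : (Matrix.vandermonde t).det ≠ 0 := Matrix.det_vandermonde_ne_zero_iff.2 hinj
  let j' : Fin (n + 1) := ⟨j, by omega⟩
  refine ⟨t, Matrix.vecMul (Pi.single j' 1) (Matrix.vandermonde t)⁻¹, ?_⟩
  intro k hk
  have h1 : Matrix.vecMul (Matrix.vecMul (Pi.single j' (1 : ℂ)) (Matrix.vandermonde t)⁻¹)
      (Matrix.vandermonde t) = Pi.single j' 1 := by
    rw [Matrix.vecMul_vecMul, Matrix.nonsing_inv_mul _ (isUnit_iff_ne_zero.2 hdet),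
      Matrix.vecMul_one]
  have h2 := congrFun h1 ⟨k, by omega⟩
  rw [Pi.single_apply] at h2
  have h3 : ((⟨k, by omega⟩ : Fin (n + 1)) = j') ↔ k = j := by
    rw [Fin.ext_iff]
  simp only [h3] at h2
  rw [← h2]
  rfl

end Vale.Agent.P181.H394
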