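import Vale.Agent.P181.H270.Master
import Vale.Agent.P181.H394.PLem

set_option autoImplicit false
set_option linter.unusedSectionVars false

/-!
# The two five-column placements for `b = a + 2`
-/

namespace Vale.Agent.P181.H394

open Vale.Agent.P181 Vale.Agent.P181.H280 Vale.Agent.P181.H270 Finset

variable {A : Type*} [CommRing A] [Algebra ℂ A]

section Gen

variable {a k : ℕ} {e : Equiv.Perm (Fin k ⊕ (Fin a × Fin 1))} {σ : Fin k → Equiv.Perm (Fin a)}

/-- The dissolved particles. -/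
def Dis (e : Equiv.Perm (Fin k ⊕ (Fin a × Fin 1))) (r : Fin k ⊕ (Fin a × Fin 1)) : Prop :=
  ∃ t, e (.inl t) = r

lemma dis_inj {r : Fin k ⊕ (Fin a × Fin 1)} (hr : Dis e r) {s s' : Fin a}
    (h : slot e σ (r, s) = slot e σ (r, s')) : s = s' := by
  obtain ⟨t, rfl⟩ := hr
  rw [slot_e_inl, slot_e_inl] at h
  exact (σ t).symm.injective h

lemma ndis {r : Fin k ⊕ (Fin a × Fin 1)} (hr : ¬ Dis e r) : ∃ p : Fin a, r = e (.inr (p, 0)) := by
  rcases h : e.symm r with t | ⟨p, j⟩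
  · exact absurd ⟨t, by rw [← h, Equiv.apply_symm_apply]⟩ hr
  · refine ⟨p, ?_⟩
    have hj : j = 0 := Subsingleton.elim _ _
    rw [← hj, ← h, Equiv.apply_symm_apply]

lemma ndis_const {r : Fin k ⊕ (Fin a × Fin 1)} (hr : ¬ Dis e r) (s s' : Fin a) :
    slot e σ (r, s) = slot e σ (r, s') := by
  obtain ⟨p, rfl⟩ := ndis hr
  rw [slot_e_inr, slot_e_inr]

lemma ndis_inj {r r' : Fin k ⊕ (Fin a × Fin 1)} (hr : ¬ Dis e r) (hr' : ¬ Dis e r')
    {s s' : Fin a} (h : slot e σ (r, s) = slot e σ (r', s')) : r = r' := by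
  obtain ⟨p, rfl⟩ := ndis hr
  obtain ⟨p', rfl⟩ := ndis hr'
  rw [slot_e_inr, slot_e_inr] at h
  have h' : p = p' := h
  rw [h']

lemma dis_bij {r : Fin k ⊕ (Fin a × Fin 1)} (hr : Dis e r) :
    Function.Bijective (fun s => slot e σ (r, s)) := by
  obtain ⟨t, rfl⟩ := hr
  have h1 : (fun s => slot e σ (e (.inl t), s)) = (σ t).symm := by
    funext s
    rw [slot_e_inl]
  rw [h1]
  exact (σ t).symm.bijective

lemma dis3 {e : Equiv.Perm (Fin 2 ⊕ (Fin a × Fin 1))} {r0 r1 r2 : Fin 2 ⊕ (Fin a × Fin 1)}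
    (h0 : Dis e r0) (h1 : Dis e r1) (h2 : Dis e r2) : r0 = r1 ∨ r0 = r2 ∨ r1 = r2 := by
  obtain ⟨t0, rfl⟩ := h0
  obtain ⟨t1, rfl⟩ := h1
  obtain ⟨t2, rfl⟩ := h2
  have h : ∀ t0 t1 t2 : Fin 2, t0 = t1 ∨ t0 = t2 ∨ t1 = t2 := by decide
  rcases h t0 t1 t2 with h | h | h
  · left; rw [h]
  · right; left; rw [h]
  · right; right; rw [h]

/-- Two bijections agreeing off two points. -/
lemma agree2 {f g : Fin a → Fin a} {i j : Fin a} (hf : Function.Injective f)
    (hg : Function.Bijective g) (hij : i ≠ j) (h : ∀ l, l ≠ i → l ≠ j → f l = g l) :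
    (f i = g i ∧ f j = g j) ∨ (f i = g j ∧ f j = g i) := by
  have h1 : ∀ l, (l = i ∨ l = j) → f l = g i ∨ f l = g j := by
    intro l hl
    obtain ⟨m, hm⟩ := hg.2 (f l)
    by_cases hmi : m = i
    · left; rw [← hm, hmi]
    · by_cases hmj : m = j
      · right; rw [← hm, hmj]
      · exfalso
        rw [← h m hmi hmj] at hm
        have h2 := hf hm
        rcases hl with hl | hl
        · exact hmi (h2.trans hl)
        · exact hmj (h2.trans hl)
  rcases h1 i (Or.inl rfl) with hi | hi <;> rcases h1 j (Or.inr rfl) with hj | hj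
  · exact absurd (hf (hi.trans hj.symm)) hij
  · exact Or.inl ⟨hi, hj⟩
  · exact Or.inr ⟨hi, hj⟩
  · exact absurd (hf (hi.trans hj.symm)) hij

end Gen

section Pat

variable {d : ℕ} (α β γ δ ε : Fin (d + 5))

/-- The five columns. -/
def PP (l : Fin 5) (i : Fin (d + 5)) : (Fin 2 ⊕ (Fin (d + 5) × Fin 1)) × Fin (d + 5) :=
  if l = 0 then (.inr (i, 0), 0) else
  if l = 1 then (.inr (i, 0), 1) else
  if l = 2 then (if i = α then (.inl 1, 0) else (.inr (i, 0), 2)) else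
  if l = 3 then (if i = β then (.inl 0, 0) else if i = γ then (.inl 1, 1) else (.inr (i, 0), 3))
  else (if i = δ then (.inl 0, 1) else if i = ε then (.inl 1, 2) else (.inr (i, 0), 4))

lemma PP_0 (i : Fin (d + 5)) : PP α β γ δ ε 0 i = (.inr (i, 0), 0) := rfl
lemma PP_1 (i : Fin (d + 5)) : PP α β γ δ ε 1 i = (.inr (i, 0), 1) := rfl
lemma PP_2 (i : Fin (d + 5)) : PP α β γ δ ε 2 i =
    if i = α then (.inl 1, 0) else (.inr (i, 0), 2) := rfl
lemma PP_3 (i : Fin (d + 5)) : PP α β γ δ ε 3 i =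
    if i = β then (.inl 0, 0) else if i = γ then (.inl 1, 1) else (.inr (i, 0), 3) := rfl
lemma PP_4 (i : Fin (d + 5)) : PP α β γ δ ε 4 i =
    if i = δ then (.inl 0, 1) else if i = ε then (.inl 1, 2) else (.inr (i, 0), 4) := rfl

lemma nn {d : ℕ} (i j : ℕ) (hi : i < d + 5) (hj : j < d + 5) (h : i ≠ j) :
    (⟨i, hi⟩ : Fin (d + 5)) ≠ ⟨j, hj⟩ := fun h1 => h (Fin.mk.inj h1)

lemma n01 : (0 : Fin (d + 5)) ≠ 1 := nn 0 1 (by omega) (by omega) (by omega)
lemma n02 : (0 : Fin (d + 5)) ≠ 2 := nn 0 2 (by omega) (by omega) (by omega)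
lemma n03 : (0 : Fin (d + 5)) ≠ 3 := nn 0 3 (by omega) (by omega) (by omega)
lemma n04 : (0 : Fin (d + 5)) ≠ 4 := nn 0 4 (by omega) (by omega) (by omega)
lemma n12 : (1 : Fin (d + 5)) ≠ 2 := nn 1 2 (by omega) (by omega) (by omega)
lemma n13 : (1 : Fin (d + 5)) ≠ 3 := nn 1 3 (by omega) (by omega) (by omega)
lemma n14 : (1 : Fin (d + 5)) ≠ 4 := nn 1 4 (by omega) (by omega) (by omega)
lemma n23 : (2 : Fin (d + 5)) ≠ 3 := nn 2 3 (by omega) (by omega) (by omega)
lemma n24 : (2 : Fin (d + 5)) ≠ 4 := nn 2 4 (by omega) (by omega) (by omega)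
lemma n34 : (3 : Fin (d + 5)) ≠ 4 := nn 3 4 (by omega) (by omega) (by omega)

/-- The column and the index of a used position. -/
def pinv (pos : (Fin 2 ⊕ (Fin (d + 5) × Fin 1)) × Fin (d + 5)) : Fin 5 × Fin (d + 5) :=
  match pos.1 with
  | .inl t => if t = 0 then (if pos.2 = 0 then (3, β) else (4, δ)) else
      (if pos.2 = 0 then (2, α) else if pos.2 = 1 then (3, γ) else (4, ε))
  | .inr (i, _) => if pos.2 = 0 then (0, i) else if pos.2 = 1 then (1, i) else
      if pos.2 = 2 then (2, i) else if pos.2 = 3 then (3, i) else (4, i)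

lemma pinv_PP (l : Fin 5) (i : Fin (d + 5)) : pinv α β γ δ ε (PP α β γ δ ε l i) = (l, i) := by
  have h10 : (1 : Fin 2) ≠ 0 := by decide
  fin_cases l
  · rfl
  · show pinv α β γ δ ε (PP α β γ δ ε 1 i) = (1, i)
    rw [PP_1]
    simp only [pinv]
    rw [if_neg n01.symm, if_pos trivial]
  · show pinv α β γ δ ε (PP α β γ δ ε 2 i) = (2, i)
    rw [PP_2]
    split_ifs with h
    · simp only [pinv]
      rw [if_neg h10, if_pos trivial, h]
    · simp only [pinv]
      rw [if_neg n02.symm, if_neg n12.symm, if_pos trivial]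
  · show pinv α β γ δ ε (PP α β γ δ ε 3 i) = (3, i)
    rw [PP_3]
    split_ifs with h h'
    · simp only [pinv]
      rw [if_pos trivial, if_pos trivial, h]
    · simp only [pinv]
      rw [if_neg h10, if_neg n01.symm, if_pos trivial, h']
    · simp only [pinv]
      rw [if_neg n03.symm, if_neg n13.symm, if_neg n23.symm, if_pos trivial]
  · show pinv α β γ δ ε (PP α β γ δ ε 4 i) = (4, i)
    rw [PP_4]
    split_ifs with h h'
    · simp only [pinv]
      rw [if_pos trivial, if_neg n01.symm, h]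
    · simp only [pinv]
      rw [if_neg h10, if_neg n02.symm, if_neg n12.symm, h']
    · simp only [pinv]
      rw [if_neg n04.symm, if_neg n14.symm, if_neg n24.symm, if_neg n34.symm]

lemma PP_inj (l : Fin 5) (i : Fin (d + 5)) (l' : Fin 5) (i' : Fin (d + 5))
    (h : PP α β γ δ ε l i = PP α β γ δ ε l' i') : l = l' ∧ i = i' := by
  have h1 := congrArg (pinv α β γ δ ε) h
  rw [pinv_PP, pinv_PP] at h1
  exact ⟨(Prod.mk.inj h1).1, (Prod.mk.inj h1).2⟩

/-- The base array. -/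
def BB (w₁ w₂ : A) (z₀ z₁ z₂ : Fin (d + 5) → A) (u : Fin (d + 5) → Fin d → A) :
    (Fin 2 ⊕ (Fin (d + 5) × Fin 1)) × Fin (d + 5) → A := fun pos =>
  match pos.1 with
  | .inl t => if t = 0 then (Fin.cons 1 (Fin.cons 1 (fun _ => w₁)) : Fin (d + 5) → A) pos.2 else
      (Fin.cons 1 (Fin.cons 1 (Fin.cons 1 (fun _ => w₂))) : Fin (d + 5) → A) pos.2
  | .inr (i, _) => (Fin.cons 1 (Fin.cons 1 (Fin.cons (if i = α then z₀ i else 1)
      (Fin.cons (if i = β ∨ i = γ then z₁ i else 1)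
        (Fin.cons (if i = δ ∨ i = ε then z₂ i else 1) (u i))))) : Fin (d + 5) → A) pos.2

variable (w₁ w₂ : A) (z₀ z₁ z₂ : Fin (d + 5) → A) (u : Fin (d + 5) → Fin d → A)

lemma BB_inl0 (s : Fin (d + 5)) : BB α β γ δ ε w₁ w₂ z₀ z₁ z₂ u (.inl 0, s) =
    (Fin.cons 1 (Fin.cons 1 (fun _ => w₁)) : Fin (d + 5) → A) s := rfl

lemma BB_inl1 (s : Fin (d + 5)) : BB α β γ δ ε w₁ w₂ z₀ z₁ z₂ u (.inl 1, s) =
    (Fin.cons 1 (Fin.cons 1 (Fin.cons 1 (fun _ => w₂))) : Fin (d + 5) → A) s := rfl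

lemma BB_inr (i s : Fin (d + 5)) (j : Fin 1) :
    BB α β γ δ ε w₁ w₂ z₀ z₁ z₂ u (.inr (i, j), s) =
    (Fin.cons 1 (Fin.cons 1 (Fin.cons (if i = α then z₀ i else 1)
      (Fin.cons (if i = β ∨ i = γ then z₁ i else 1)
        (Fin.cons (if i = δ ∨ i = ε then z₂ i else 1) (u i))))) : Fin (d + 5) → A) s := rfl

lemma BB_P (l : Fin 5) (i : Fin (d + 5)) :
    BB α β γ δ ε w₁ w₂ z₀ z₁ z₂ u (PP α β γ δ ε l i) = 1 := by
  fin_cases l
  · rfl
  · rfl
  · show BB α β γ δ ε w₁ w₂ z₀ z₁ z₂ u (PP α β γ δ ε 2 i) = 1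
    rw [PP_2]
    split_ifs with h
    · rfl
    · rw [BB_inr]
      show (if i = α then z₀ i else 1) = 1
      rw [if_neg h]
  · show BB α β γ δ ε w₁ w₂ z₀ z₁ z₂ u (PP α β γ δ ε 3 i) = 1
    rw [PP_3]
    split_ifs with h h'
    · rfl
    · rfl
    · rw [BB_inr]
      show (if i = β ∨ i = γ then z₁ i else 1) = 1
      rw [if_neg (fun h1 => h1.elim h h')]
  · show BB α β γ δ ε w₁ w₂ z₀ z₁ z₂ u (PP α β γ δ ε 4 i) = 1
    rw [PP_4]
    split_ifs with h h'
    · rfl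
    · rfl
    · rw [BB_inr]
      show (if i = δ ∨ i = ε then z₂ i else 1) = 1
      rw [if_neg (fun h1 => h1.elim h h')]

lemma BB_mem (L : Submodule ℂ A) (hw₁ : w₁ ∈ L) (hw₂ : w₂ ∈ L) (hz₀ : ∀ i, z₀ i ∈ L)
    (hz₁ : ∀ i, z₁ i ∈ L) (hz₂ : ∀ i, z₂ i ∈ L) (hu : ∀ i s, u i s ∈ L) (hβγ : β ≠ γ)
    (hδε : δ ≠ ε) (pos : (Fin 2 ⊕ (Fin (d + 5) × Fin 1)) × Fin (d + 5))
    (hpos : ∀ l i, pos ≠ PP α β γ δ ε l i) :
    BB α β γ δ ε w₁ w₂ z₀ z₁ z₂ u pos ∈ L := by
  obtain ⟨r, s⟩ := pos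
  rcases r with t | ⟨i, j⟩
  · fin_cases t
    · show BB α β γ δ ε w₁ w₂ z₀ z₁ z₂ u (.inl 0, s) ∈ L
      rw [BB_inl0]
      revert hpos
      refine Fin.cases ?_ (fun s => ?_) s
      · intro hpos
        exact absurd (by rw [PP_3, if_pos rfl]; rfl) (hpos 3 β)
      · refine Fin.cases ?_ (fun s => ?_) s
        · intro hpos
          exact absurd (by rw [PP_4, if_pos rfl]; rfl) (hpos 4 δ)
        · intro _
          exact hw₁
    · show BB α β γ δ ε w₁ w₂ z₀ z₁ z₂ u (.inl 1, s) ∈ L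
      rw [BB_inl1]
      revert hpos
      refine Fin.cases ?_ (fun s => ?_) s
      · intro hpos
        exact absurd (by rw [PP_2, if_pos rfl]; rfl) (hpos 2 α)
      · refine Fin.cases ?_ (fun s => ?_) s
        · intro hpos
          exact absurd (by rw [PP_3, if_neg hβγ.symm, if_pos rfl]; rfl) (hpos 3 γ)
        · refine Fin.cases ?_ (fun s => ?_) s
          · intro hpos
            exact absurd (by rw [PP_4, if_neg hδε.symm, if_pos rfl]; rfl) (hpos 4 ε)
          · intro _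
            exact hw₂
  · have hj : j = 0 := Subsingleton.elim _ _
    subst hj
    rw [BB_inr]
    revert hpos
    refine Fin.cases ?_ (fun s => ?_) s
    · intro hpos
      exact absurd (by rw [PP_0]) (hpos 0 i)
    · refine Fin.cases ?_ (fun s => ?_) s
      · intro hpos
        exact absurd (by rw [PP_1]; rfl) (hpos 1 i)
      · refine Fin.cases ?_ (fun s => ?_) s
        · intro hpos
          show (if i = α then z₀ i else 1) ∈ L
          by_cases h : i = α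
          · rw [if_pos h]
            exact hz₀ i
          · exact absurd (by rw [PP_2, if_neg h]; rfl) (hpos 2 i)
        · refine Fin.cases ?_ (fun s => ?_) s
          · intro hpos
            show (if i = β ∨ i = γ then z₁ i else 1) ∈ L
            by_cases h : i = β ∨ i = γ
            · rw [if_pos h]
              exact hz₁ i
            · rw [not_or] at h
              exact absurd (by rw [PP_3, if_neg h.1, if_neg h.2]; rfl) (hpos 3 i)
          · refine Fin.cases ?_ (fun s => ?_) s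
            · intro hpos
              show (if i = δ ∨ i = ε then z₂ i else 1) ∈ L
              by_cases h : i = δ ∨ i = ε
              · rw [if_pos h]
                exact hz₂ i
              · rw [not_or] at h
                exact absurd (by rw [PP_4, if_neg h.1, if_neg h.2]; rfl) (hpos 4 i)
            · intro _
              exact hu i s

/-- The letters of the particle `i`. -/
def VV (i : Fin (d + 5)) : A := (if i = α then z₀ i else 1) *
  ((if i = β ∨ i = γ then z₁ i else 1) * ((if i = δ ∨ i = ε then z₂ i else 1) * ∏ s, u i s))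

lemma prod_BB (i : Fin (d + 5)) : ∏ s, BB α β γ δ ε w₁ w₂ z₀ z₁ z₂ u (.inr (i, 0), s) =
    VV α β γ δ ε z₀ z₁ z₂ u i := by
  simp only [BB_inr]
  rw [Fin.prod_cons, Fin.prod_cons, Fin.prod_cons, Fin.prod_cons, Fin.prod_cons, one_mul, one_mul]
  rfl

lemma BB_inl0_eq (s : Fin (d + 5)) : BB α β γ δ ε w₁ w₂ z₀ z₁ z₂ u (.inl 0, s) =
    if s = 0 ∨ s = 1 then 1 else w₁ := by
  rw [BB_inl0]
  refine Fin.cases ?_ (fun s => ?_) s
  · rw [if_pos (Or.inl rfl)]
    rfl
  · refine Fin.cases ?_ (fun s => ?_) s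
    · have h3 : ((Fin.succ 0 : Fin (d + 5)) = 0 ∨ (Fin.succ 0 : Fin (d + 5)) = 1) := Or.inr rfl
      rw [if_pos h3]
      rfl
    · rw [if_neg]
      · rfl
      · rintro (h | h)
        · exact Fin.succ_ne_zero _ h
        · have h3 : s.succ = 0 := Fin.succ_injective _ h
          exact Fin.succ_ne_zero _ h3

lemma BB_inl1_eq (s : Fin (d + 5)) : BB α β γ δ ε w₁ w₂ z₀ z₁ z₂ u (.inl 1, s) =
    if s = 0 ∨ s = 1 ∨ s = 2 then 1 else w₂ := by
  rw [BB_inl1]
  refine Fin.cases ?_ (fun s => ?_) s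
  · rw [if_pos (Or.inl rfl)]
    rfl
  · refine Fin.cases ?_ (fun s => ?_) s
    · have h3 : ((Fin.succ 0 : Fin (d + 5)) = 0 ∨ (Fin.succ 0 : Fin (d + 5)) = 1 ∨
        (Fin.succ 0 : Fin (d + 5)) = 2) := Or.inr (Or.inl rfl)
      rw [if_pos h3]
      rfl
    · refine Fin.cases ?_ (fun s => ?_) s
      · have h3 : ((Fin.succ (Fin.succ 0) : Fin (d + 5)) = 0 ∨
          (Fin.succ (Fin.succ 0) : Fin (d + 5)) = 1 ∨
          (Fin.succ (Fin.succ 0) : Fin (d + 5)) = 2) := Or.inr (Or.inr rfl)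
        rw [if_pos h3]
        rfl
      · rw [if_neg]
        · rfl
        · rintro (h | h | h)
          · exact Fin.succ_ne_zero _ h
          · have h3 : s.succ.succ = 0 := Fin.succ_injective _ h
            exact Fin.succ_ne_zero _ h3
          · have h3 : s.succ.succ = 1 := Fin.succ_injective _ h
            have h4 : s.succ = 0 := Fin.succ_injective _ h3
            exact Fin.succ_ne_zero _ h4

end Pat

section Surv

variable {d : ℕ} {α β γ δ ε : Fin (d + 5)} {e : Equiv.Perm (Fin 2 ⊕ (Fin (d + 5) × Fin 1))}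
  {σ : Fin 2 → Equiv.Perm (Fin (d + 5))}

/-- If the particle `inl κ` is not dissolved, two of the `inr` are. -/
lemma two_dis (h : ∀ l, Function.Bijective (fun i => slot e σ (PP α β γ δ ε l i))) {κ : Fin 2}
    (hκ : ¬ Dis e (.inl κ)) : ∃ i0 i1 : Fin (d + 5), i0 ≠ i1 ∧ Dis e (.inr (i0, 0)) ∧
      Dis e (.inr (i1, 0)) ∧ slot e σ (.inr (i0, 0), 0) = slot e σ (.inl κ, 0) ∧
      slot e σ (.inr (i1, 0), 1) = slot e σ (.inl κ, 0) := by
  obtain ⟨i0, hi0⟩ := (h 0).2 (slot e σ (.inl κ, 0))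
  obtain ⟨i1, hi1⟩ := (h 1).2 (slot e σ (.inl κ, 0))
  have hi0' : slot e σ (.inr (i0, 0), 0) = slot e σ (.inl κ, 0) := hi0
  have hi1' : slot e σ (.inr (i1, 0), 1) = slot e σ (.inl κ, 0) := hi1
  have hd0 : Dis e (.inr (i0, 0)) := by
    by_contra hcon
    exact absurd (ndis_inj hcon hκ hi0') Sum.inr_ne_inl
  have hd1 : Dis e (.inr (i1, 0)) := by
    by_contra hcon
    exact absurd (ndis_inj hcon hκ hi1') Sum.inr_ne_inl
  refine ⟨i0, i1, ?_, hd0, hd1, hi0', hi1'⟩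
  rintro rfl
  exact n01 (dis_inj hd0 (hi0'.trans hi1'.symm))

lemma dis0 (h : ∀ l, Function.Bijective (fun i => slot e σ (PP α β γ δ ε l i))) :
    Dis e (.inl 0) := by
  by_contra hcon
  obtain ⟨i0, i1, hne, hd0, hd1, hs0, hs1⟩ := two_dis h hcon
  obtain ⟨i, hi⟩ := (h 2).2 (slot e σ (.inl 0, 0))
  have hi' : slot e σ (PP α β γ δ ε 2 i) = slot e σ (.inl 0, 0) := hi
  rw [PP_2] at hi'
  split_ifs at hi' with hα
  · have h1 : ¬ Dis e (.inl 1) := by
      intro h1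
      rcases dis3 h1 hd0 hd1 with h2 | h2 | h2
      · exact Sum.inl_ne_inr h2
      · exact Sum.inl_ne_inr h2
      · exact hne (Prod.mk.inj (Sum.inr.inj h2)).1
    have h2 := Sum.inl.inj (ndis_inj h1 hcon hi')
    exact absurd h2 (by decide)
  · by_cases hd : Dis e (.inr (i, 0))
    · rcases dis3 hd hd0 hd1 with h2 | h2 | h2
      · have h3 : i = i0 := (Prod.mk.inj (Sum.inr.inj h2)).1
        subst h3
        exact n02 (dis_inj hd (hs0.trans hi'.symm))
      · have h3 : i = i1 := (Prod.mk.inj (Sum.inr.inj h2)).1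
        subst h3
        exact n12 (dis_inj hd (hs1.trans hi'.symm))
      · exact hne (Prod.mk.inj (Sum.inr.inj h2)).1
    · exact absurd (ndis_inj hd hcon hi') Sum.inr_ne_inl

lemma dis1 (h : ∀ l, Function.Bijective (fun i => slot e σ (PP α β γ δ ε l i))) :
    Dis e (.inl 1) := by
  by_contra hcon
  obtain ⟨i0, i1, hne, hd0, hd1, -, -⟩ := two_dis h hcon
  rcases dis3 (dis0 h) hd0 hd1 with h2 | h2 | h2
  · exact Sum.inl_ne_inr h2
  · exact Sum.inl_ne_inr h2
  · exact hne (Prod.mk.inj (Sum.inr.inj h2)).1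

lemma ndisr (h : ∀ l, Function.Bijective (fun i => slot e σ (PP α β γ δ ε l i)))
    (i : Fin (d + 5)) : ¬ Dis e (.inr (i, 0)) := by
  intro hd
  rcases dis3 (dis0 h) (dis1 h) hd with h2 | h2 | h2
  · exact absurd (Sum.inl.inj h2) (by decide)
  · exact Sum.inl_ne_inr h2
  · exact Sum.inl_ne_inr h2

/-- The permutation of the slots. -/
noncomputable def piS (h : ∀ l, Function.Bijective (fun i => slot e σ (PP α β γ δ ε l i))) :
    Equiv.Perm (Fin (d + 5)) := Equiv.ofBijective _ (h 0)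

lemma piS_apply (h : ∀ l, Function.Bijective (fun i => slot e σ (PP α β γ δ ε l i)))
    (i s : Fin (d + 5)) : slot e σ (.inr (i, 0), s) = piS h i := by
  have h1 : piS h i = slot e σ (.inr (i, 0), 0) := rfl
  rw [h1]
  exact ndis_const (ndisr h i) _ _

/-- The permutation of the letters of `inl 0`. -/
noncomputable def de0 (h : ∀ l, Function.Bijective (fun i => slot e σ (PP α β γ δ ε l i))) :
    Equiv.Perm (Fin (d + 5)) := Equiv.ofBijective _ (dis_bij (σ := σ) (dis0 h))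

lemma de0_apply (h : ∀ l, Function.Bijective (fun i => slot e σ (PP α β γ δ ε l i)))
    (s : Fin (d + 5)) : slot e σ (.inl 0, s) = de0 h s := rfl

/-- The permutation of the letters of `inl 1`. -/
noncomputable def de1 (h : ∀ l, Function.Bijective (fun i => slot e σ (PP α β γ δ ε l i))) :
    Equiv.Perm (Fin (d + 5)) := Equiv.ofBijective _ (dis_bij (σ := σ) (dis1 h))

lemma de1_apply (h : ∀ l, Function.Bijective (fun i => slot e σ (PP α β γ δ ε l i)))
    (s : Fin (d + 5)) : slot e σ (.inl 1, s) = de1 h s := rfl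

/-- The content of the slots. -/
lemma cont_eq (h : ∀ l, Function.Bijective (fun i => slot e σ (PP α β γ δ ε l i)))
    (B : (Fin 2 ⊕ (Fin (d + 5) × Fin 1)) × Fin (d + 5) → A) (p : Fin (d + 5)) :
    cont (slot e σ) B p = B (.inl 0, (de0 h).symm p) * B (.inl 1, (de1 h).symm p) *
      ∏ s, B (.inr ((piS h).symm p, 0), s) := by
  rw [cont, Fintype.prod_prod_type, Fintype.prod_sum_type, Fin.prod_univ_two]
  congr 1
  · congr 1
    · rw [Finset.prod_eq_single ((de0 h).symm p)]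
      · rw [de0_apply h, Equiv.apply_symm_apply, if_pos rfl]
      · intro s _ hs
        rw [de0_apply h, if_neg]
        intro h1
        apply hs
        rw [← h1, Equiv.symm_apply_apply]
      · intro h1
        exact absurd (Finset.mem_univ _) h1
    · rw [Finset.prod_eq_single ((de1 h).symm p)]
      · rw [de1_apply h, Equiv.apply_symm_apply, if_pos rfl]
      · intro s _ hs
        rw [de1_apply h, if_neg]
        intro h1
        apply hs
        rw [← h1, Equiv.symm_apply_apply]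
      · intro h1
        exact absurd (Finset.mem_univ _) h1
  · rw [Fintype.prod_prod_type, Finset.prod_eq_single ((piS h).symm p)]
    · rw [Fin.prod_univ_one]
      apply Finset.prod_congr rfl
      intro s _
      rw [piS_apply h, Equiv.apply_symm_apply, if_pos rfl]
    · intro i _ hi
      apply Finset.prod_eq_one
      intro j _
      apply Finset.prod_eq_one
      intro s _
      have hj : j = 0 := Subsingleton.elim _ _
      subst hj
      rw [piS_apply h, if_neg]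
      intro h1
      apply hi
      rw [← h1, Equiv.symm_apply_apply]
    · intro h1
      exact absurd (Finset.mem_univ _) h1

/-- The contents of the slots. -/
def CC (w₁ w₂ : A) (V : Fin (d + 5) → A) (a0 a1 b0 b1 b2 i : Fin (d + 5)) : A :=
  (if i = a0 ∨ i = a1 then 1 else w₁) * (if i = b0 ∨ i = b1 ∨ i = b2 then 1 else w₂) * V i

lemma cont_CC (h : ∀ l, Function.Bijective (fun i => slot e σ (PP α β γ δ ε l i)))
    (w₁ w₂ : A) (z₀ z₁ z₂ : Fin (d + 5) → A) (u : Fin (d + 5) → Fin d → A)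
    {a0 a1 b0 b1 b2 : Fin (d + 5)} (ha0 : slot e σ (.inl 0, 0) = piS h a0)
    (ha1 : slot e σ (.inl 0, 1) = piS h a1) (hb0 : slot e σ (.inl 1, 0) = piS h b0)
    (hb1 : slot e σ (.inl 1, 1) = piS h b1) (hb2 : slot e σ (.inl 1, 2) = piS h b2)
    (p : Fin (d + 5)) :
    cont (slot e σ) (BB α β γ δ ε w₁ w₂ z₀ z₁ z₂ u) p =
      CC w₁ w₂ (VV α β γ δ ε z₀ z₁ z₂ u) a0 a1 b0 b1 b2 ((piS h).symm p) := by
  rw [cont_eq h, prod_BB, BB_inl0_eq, BB_inl1_eq]
  rw [de0_apply h] at ha0 ha1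
  rw [de1_apply h] at hb0 hb1 hb2
  simp only [Equiv.symm_apply_eq, ha0, ha1, hb0, hb1, hb2, CC]

/-- A bijection agreeing with another one off one point. -/
lemma agree1 {a : ℕ} {f g : Fin a → Fin a} {i0 : Fin a} (hf : Function.Injective f)
    (hg : Function.Surjective g) (h : ∀ i, i ≠ i0 → f i = g i) : f i0 = g i0 := by
  obtain ⟨j, hj⟩ := hg (f i0)
  by_cases hji : j = i0
  · rw [← hj, hji]
  · rw [← h j hji] at hj
    exact absurd (hf hj) hji

lemma sgn_eq (h : ∀ l, Function.Bijective (fun i => slot e σ (PP α β γ δ ε l i))) (l : Fin 5)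
    (hl : ∀ i, slot e σ (PP α β γ δ ε l i) = piS h i) :
    ((Equiv.Perm.sign (Equiv.ofBijective _ (h l)) : ℤ) : ℂ) =
      ((Equiv.Perm.sign (piS h) : ℤ) : ℂ) := by
  have h1 : Equiv.ofBijective _ (h l) = piS h := by
    ext i
    exact congrArg Fin.val (hl i)
  rw [h1]

lemma sgn_neg (h : ∀ l, Function.Bijective (fun i => slot e σ (PP α β γ δ ε l i))) (l : Fin 5)
    {i j : Fin (d + 5)} (hij : i ≠ j)
    (hl : ∀ m, slot e σ (PP α β γ δ ε l m) = piS h (Equiv.swap i j m)) :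
    ((Equiv.Perm.sign (Equiv.ofBijective _ (h l)) : ℤ) : ℂ) =
      - ((Equiv.Perm.sign (piS h) : ℤ) : ℂ) := by
  have h1 : Equiv.ofBijective _ (h l) = piS h * Equiv.swap i j := by
    ext m
    exact congrArg Fin.val (hl m)
  rw [h1, map_mul, Equiv.Perm.sign_swap hij]
  simp

lemma c0 (h : ∀ l, Function.Bijective (fun i => slot e σ (PP α β γ δ ε l i)))
    (i : Fin (d + 5)) : slot e σ (PP α β γ δ ε 0 i) = piS h i := by
  rw [PP_0, piS_apply h]

lemma c1 (h : ∀ l, Function.Bijective (fun i => slot e σ (PP α β γ δ ε l i)))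
    (i : Fin (d + 5)) : slot e σ (PP α β γ δ ε 1 i) = piS h i := by
  rw [PP_1, piS_apply h]

lemma c2 (h : ∀ l, Function.Bijective (fun i => slot e σ (PP α β γ δ ε l i)))
    (i : Fin (d + 5)) : slot e σ (PP α β γ δ ε 2 i) = piS h i := by
  have h1 : ∀ i, i ≠ α → slot e σ (PP α β γ δ ε 2 i) = piS h i := by
    intro i hi
    rw [PP_2, if_neg hi, piS_apply h]
  by_cases hi : i = α
  · rw [hi]
    exact agree1 (f := fun i => slot e σ (PP α β γ δ ε 2 i)) (g := piS h) (h 2).1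
      (piS h).surjective h1
  · exact h1 i hi

lemma c2' (h : ∀ l, Function.Bijective (fun i => slot e σ (PP α β γ δ ε l i))) :
    slot e σ (.inl 1, 0) = piS h α := by
  rw [← c2 h α, PP_2, if_pos rfl]

lemma c3 (h : ∀ l, Function.Bijective (fun i => slot e σ (PP α β γ δ ε l i))) (hβγ : β ≠ γ) :
    (slot e σ (.inl 0, 0) = piS h β ∧ slot e σ (.inl 1, 1) = piS h γ ∧
      ((Equiv.Perm.sign (Equiv.ofBijective _ (h 3)) : ℤ) : ℂ) =
      ((Equiv.Perm.sign (piS h) : ℤ) : ℂ)) ∨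
    (slot e σ (.inl 0, 0) = piS h γ ∧ slot e σ (.inl 1, 1) = piS h β ∧
      ((Equiv.Perm.sign (Equiv.ofBijective _ (h 3)) : ℤ) : ℂ) =
      - ((Equiv.Perm.sign (piS h) : ℤ) : ℂ)) := by
  have h1 : ∀ i, i ≠ β → i ≠ γ → slot e σ (PP α β γ δ ε 3 i) = piS h i := by
    intro i hi hi'
    rw [PP_3, if_neg hi, if_neg hi', piS_apply h]
  have hβ : PP α β γ δ ε 3 β = (.inl 0, 0) := by rw [PP_3, if_pos rfl]
  have hγ : PP α β γ δ ε 3 γ = (.inl 1, 1) := by rw [PP_3, if_neg hβγ.symm, if_pos rfl]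
  rcases agree2 (f := fun i => slot e σ (PP α β γ δ ε 3 i)) (g := piS h) (h 3).1
    (piS h).bijective hβγ h1 with ⟨h2, h3⟩ | ⟨h2, h3⟩
  · left
    refine ⟨by rw [← hβ]; exact h2, by rw [← hγ]; exact h3, ?_⟩
    apply sgn_eq h
    intro i
    by_cases hi : i = β
    · rw [hi]; exact h2
    · by_cases hi' : i = γ
      · rw [hi']; exact h3
      · exact h1 i hi hi'
  · right
    refine ⟨by rw [← hβ]; exact h2, by rw [← hγ]; exact h3, ?_⟩
    apply sgn_neg h 3 hβγ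
    intro i
    by_cases hi : i = β
    · rw [hi, Equiv.swap_apply_left]; exact h2
    · by_cases hi' : i = γ
      · rw [hi', Equiv.swap_apply_right]; exact h3
      · rw [Equiv.swap_apply_of_ne_of_ne hi hi']
        exact h1 i hi hi'

lemma c4 (h : ∀ l, Function.Bijective (fun i => slot e σ (PP α β γ δ ε l i))) (hδε : δ ≠ ε) :
    (slot e σ (.inl 0, 1) = piS h δ ∧ slot e σ (.inl 1, 2) = piS h ε ∧
      ((Equiv.Perm.sign (Equiv.ofBijective _ (h 4)) : ℤ) : ℂ) =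
      ((Equiv.Perm.sign (piS h) : ℤ) : ℂ)) ∨
    (slot e σ (.inl 0, 1) = piS h ε ∧ slot e σ (.inl 1, 2) = piS h δ ∧
      ((Equiv.Perm.sign (Equiv.ofBijective _ (h 4)) : ℤ) : ℂ) =
      - ((Equiv.Perm.sign (piS h) : ℤ) : ℂ)) := by
  have h1 : ∀ i, i ≠ δ → i ≠ ε → slot e σ (PP α β γ δ ε 4 i) = piS h i := by
    intro i hi hi'
    rw [PP_4, if_neg hi, if_neg hi', piS_apply h]
  have hβ : PP α β γ δ ε 4 δ = (.inl 0, 1) := by rw [PP_4, if_pos rfl]
  have hγ : PP α β γ δ ε 4 ε = (.inl 1, 2) := by rw [PP_4, if_neg hδε.symm, if_pos rfl]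
  rcases agree2 (f := fun i => slot e σ (PP α β γ δ ε 4 i)) (g := piS h) (h 4).1
    (piS h).bijective hδε h1 with ⟨h2, h3⟩ | ⟨h2, h3⟩
  · left
    refine ⟨by rw [← hβ]; exact h2, by rw [← hγ]; exact h3, ?_⟩
    apply sgn_eq h
    intro i
    by_cases hi : i = δ
    · rw [hi]; exact h2
    · by_cases hi' : i = ε
      · rw [hi']; exact h3
      · exact h1 i hi hi'
  · right
    refine ⟨by rw [← hβ]; exact h2, by rw [← hγ]; exact h3, ?_⟩
    apply sgn_neg h 4 hδε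
    intro i
    by_cases hi : i = δ
    · rw [hi, Equiv.swap_apply_left]; exact h2
    · by_cases hi' : i = ε
      · rw [hi', Equiv.swap_apply_right]; exact h3
      · rw [Equiv.swap_apply_of_ne_of_ne hi hi']
        exact h1 i hi hi'

/-- The value of one placement. -/
lemma val_of (h : ∀ l, Function.Bijective (fun i => slot e σ (PP α β γ δ ε l i)))
    (φ : MultilinearMap ℂ (fun _ : Fin (d + 5) => A) ℂ) (hφ : IsSgn 5 φ)
    (B : (Fin 2 ⊕ (Fin (d + 5) × Fin 1)) × Fin (d + 5) → A) (C : Fin (d + 5) → A)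
    (hC : ∀ p, cont (slot e σ) B p = C ((piS h).symm p)) (s3 s4 : ℂ)
    (h3 : ((Equiv.Perm.sign (Equiv.ofBijective _ (h 3)) : ℤ) : ℂ) =
      s3 * ((Equiv.Perm.sign (piS h) : ℤ) : ℂ))
    (h4 : ((Equiv.Perm.sign (Equiv.ofBijective _ (h 4)) : ℤ) : ℂ) =
      s4 * ((Equiv.Perm.sign (piS h) : ℤ) : ℂ)) :
    (∏ l, ((Equiv.Perm.sign (Equiv.ofBijective _ (h l)) : ℤ) : ℂ)) * φ (cont (slot e σ) B) =
      s3 * s4 * φ C := by
  have h5 : φ (cont (slot e σ) B) = ((Equiv.Perm.sign (piS h) : ℤ) : ℂ) ^ 5 * φ C := by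
    have h6 := hφ (piS h).symm C
    rw [Equiv.Perm.sign_symm] at h6
    rw [← h6]
    congr 1
    funext p
    exact hC p
  rw [h5, Fin.prod_univ_five, sgn_eq h 0 (c0 h), sgn_eq h 1 (c1 h), sgn_eq h 2 (c2 h), h3, h4]
  have h7 := sign_sq (piS h)
  set t := ((Equiv.Perm.sign (piS h) : ℤ) : ℂ) with ht
  calc t * t * t * (s3 * t) * (s4 * t) * (t ^ 5 * φ C) = (t * t) ^ 5 * (s3 * s4 * φ C) := by ring
    _ = s3 * s4 * φ C := by rw [h7, one_pow, one_mul]

end Surv

section Two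

variable {d : ℕ} {e : Equiv.Perm (Fin 2 ⊕ (Fin (d + 5) × Fin 1))}
  {σ : Fin 2 → Equiv.Perm (Fin (d + 5))}

/-- Classification of the placements for the first relation. -/
lemma cls1 (h : ∀ l, Function.Bijective (fun i => slot e σ (PP 0 0 2 1 3 l i)))
    (φ : MultilinearMap ℂ (fun _ : Fin (d + 5) => A) ℂ) (hφ : IsSgn 5 φ) (w₁ w₂ : A)
    (z₀ z₁ z₂ : Fin (d + 5) → A) (u : Fin (d + 5) → Fin d → A) :
    (slot e σ (.inl 0, 1) = piS h 1 ∧
      (∏ l, ((Equiv.Perm.sign (Equiv.ofBijective _ (h l)) : ℤ) : ℂ)) *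
        φ (cont (slot e σ) (BB 0 0 2 1 3 w₁ w₂ z₀ z₁ z₂ u)) =
        φ (CC w₁ w₂ (VV 0 0 2 1 3 z₀ z₁ z₂ u) 0 1 0 2 3)) ∨
    (slot e σ (.inl 0, 1) = piS h 3 ∧
      (∏ l, ((Equiv.Perm.sign (Equiv.ofBijective _ (h l)) : ℤ) : ℂ)) *
        φ (cont (slot e σ) (BB 0 0 2 1 3 w₁ w₂ z₀ z₁ z₂ u)) =
        - φ (CC w₁ w₂ (VV 0 0 2 1 3 z₀ z₁ z₂ u) 0 3 0 2 1)) := by
  have hb0 := c2' h
  rcases c3 h n02 with ⟨ha0, hb1, h3⟩ | ⟨ha0, hb1, h3⟩
  · rcases c4 h n13 with ⟨ha1, hb2, h4⟩ | ⟨ha1, hb2, h4⟩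
    · left
      refine ⟨ha1, ?_⟩
      have h5 := val_of h φ hφ _ _ (cont_CC h w₁ w₂ z₀ z₁ z₂ u ha0 ha1 hb0 hb1 hb2) 1 1
        (by rw [h3, one_mul]) (by rw [h4, one_mul])
      rw [h5]
      ring
    · right
      refine ⟨ha1, ?_⟩
      have h5 := val_of h φ hφ _ _ (cont_CC h w₁ w₂ z₀ z₁ z₂ u ha0 ha1 hb0 hb1 hb2) 1 (-1)
        (by rw [h3, one_mul]) (by rw [h4]; ring)
      rw [h5]
      ring
  · exfalso
    exact n01 (dis_inj (dis1 h) (hb0.trans hb1.symm))

/-- Classification of the placements for the second relation. -/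
lemma cls2 (h : ∀ l, Function.Bijective (fun i => slot e σ (PP 2 1 0 0 3 l i)))
    (φ : MultilinearMap ℂ (fun _ : Fin (d + 5) => A) ℂ) (hφ : IsSgn 5 φ) (w₁ w₂ : A)
    (z₀ z₁ z₂ : Fin (d + 5) → A) (u : Fin (d + 5) → Fin d → A) :
    (slot e σ (.inl 0, 1) = piS h 0 ∧
      (∏ l, ((Equiv.Perm.sign (Equiv.ofBijective _ (h l)) : ℤ) : ℂ)) *
        φ (cont (slot e σ) (BB 2 1 0 0 3 w₁ w₂ z₀ z₁ z₂ u)) =
        φ (CC w₁ w₂ (VV 2 1 0 0 3 z₀ z₁ z₂ u) 1 0 2 0 3)) ∨
    (slot e σ (.inl 0, 1) = piS h 3 ∧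
      (∏ l, ((Equiv.Perm.sign (Equiv.ofBijective _ (h l)) : ℤ) : ℂ)) *
        φ (cont (slot e σ) (BB 2 1 0 0 3 w₁ w₂ z₀ z₁ z₂ u)) =
        φ (CC w₁ w₂ (VV 2 1 0 0 3 z₀ z₁ z₂ u) 0 3 2 1 0)) := by
  have hb0 := c2' h
  rcases c3 h n01.symm with ⟨ha0, hb1, h3⟩ | ⟨ha0, hb1, h3⟩
  · rcases c4 h n03 with ⟨ha1, hb2, h4⟩ | ⟨ha1, hb2, h4⟩
    · left
      refine ⟨ha1, ?_⟩
      have h5 := val_of h φ hφ _ _ (cont_CC h w₁ w₂ z₀ z₁ z₂ u ha0 ha1 hb0 hb1 hb2) 1 1
        (by rw [h3, one_mul]) (by rw [h4, one_mul])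
      rw [h5]
      ring
    · exfalso
      exact n12 (dis_inj (dis1 h) (hb1.trans hb2.symm))
  · rcases c4 h n03 with ⟨ha1, hb2, h4⟩ | ⟨ha1, hb2, h4⟩
    · exfalso
      exact n01 (dis_inj (dis0 h) (ha0.trans ha1.symm))
    · right
      refine ⟨ha1, ?_⟩
      have h5 := val_of h φ hφ _ _ (cont_CC h w₁ w₂ z₀ z₁ z₂ u ha0 ha1 hb0 hb1 hb2) (-1) (-1)
        (by rw [h3]; ring) (by rw [h4]; ring)
      rw [h5]
      ring

lemma sum_cls {ι : Type*} [Fintype ι] (f : ι → ℂ) (X Y : ℂ)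
    (h : ∀ i, f i = 0 ∨ f i = X ∨ f i = Y) (i0 : ι) (hi0 : f i0 = X) :
    ∃ m n : ℕ, 1 ≤ m ∧ ∑ i, f i = m * X + n * Y := by
  classical
  refine ⟨(univ.filter fun i => f i = X).card,
    (univ.filter fun i => f i ≠ X ∧ f i = Y).card, ?_, ?_⟩
  · rw [Nat.one_le_iff_ne_zero, ← Nat.pos_iff_ne_zero, Finset.card_pos]
    exact ⟨i0, Finset.mem_filter.2 ⟨Finset.mem_univ _, hi0⟩⟩
  · have h1 : ∀ i, f i = (if f i = X then X else 0) + (if f i ≠ X ∧ f i = Y then Y else 0) := by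
      intro i
      by_cases h1 : f i = X
      · rw [if_pos h1, if_neg (fun h2 => h2.1 h1), add_zero, h1]
      · rw [if_neg h1, zero_add]
        rcases h i with h2 | h2 | h2
        · rw [h2]
          split_ifs with h3
          · exact h3.2
          · rfl
        · exact absurd h2 h1
        · rw [if_pos ⟨h1, h2⟩, h2]
    rw [Finset.sum_congr rfl (fun i _ => h1 i), Finset.sum_add_distrib, ← Finset.sum_filter,
      ← Finset.sum_filter, Finset.sum_const, Finset.sum_const, nsmul_eq_mul, nsmul_eq_mul]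

/-- The slot contents, uniformly in the two relations. -/
def WW (ζ : Fin (d + 5) → A) (ζ' : A) (u : Fin (d + 5) → Fin d → A) (i : Fin (d + 5)) : A :=
  if i = 0 then ζ 0 * ζ' * ∏ s, u i s else
    if i = 1 ∨ i = 2 ∨ i = 3 then ζ i * ∏ s, u i s else ∏ s, u i s

lemma VV1 (ζ : Fin (d + 5) → A) (ζ' : A) (u : Fin (d + 5) → Fin d → A) :
    VV 0 0 2 1 3 ζ (fun i => if i = 0 then ζ' else ζ i) ζ u = WW ζ ζ' u := by
  funext i
  simp only [VV, WW]
  by_cases h0 : i = 0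
  · subst h0
    rw [if_pos rfl, if_pos (Or.inl rfl), if_pos rfl, if_neg, if_pos rfl]
    · ring
    · rintro (h | h)
      · exact n01 h
      · exact n03 h
  · rw [if_neg h0, if_neg h0, if_neg h0]
    by_cases h1 : i = 1
    · subst h1
      rw [if_neg, if_pos (Or.inl rfl), if_pos (Or.inl rfl)]
      · ring
      · rintro (h | h)
        · exact n01 h.symm
        · exact n12 h
    · by_cases h2 : i = 2
      · subst h2
        rw [if_pos (Or.inr rfl), if_neg, if_pos (Or.inr (Or.inl rfl))]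
        · ring
        · rintro (h | h)
          · exact n12 h.symm
          · exact n23 h
      · by_cases h3 : i = 3
        · subst h3
          rw [if_neg, if_pos (Or.inr rfl), if_pos (Or.inr (Or.inr rfl))]
          · ring
          · rintro (h | h)
            · exact n03 h.symm
            · exact n23 h.symm
        · rw [if_neg (fun h => h.elim h0 h2), if_neg (fun h => h.elim h1 h3),
            if_neg (fun h => h.elim h1 (fun h => h.elim h2 h3))]
          ring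

lemma VV2 (ζ : Fin (d + 5) → A) (ζ' : A) (u : Fin (d + 5) → Fin d → A) :
    VV 2 1 0 0 3 ζ (fun i => if i = 0 then ζ' else ζ i) ζ u = WW ζ ζ' u := by
  funext i
  simp only [VV, WW]
  by_cases h0 : i = 0
  · subst h0
    rw [if_neg n02, if_pos (Or.inr rfl), if_pos rfl, if_pos (Or.inl rfl), if_pos rfl]
    ring
  · rw [if_neg h0, if_neg h0]
    by_cases h1 : i = 1
    · subst h1
      rw [if_neg n12, if_pos (Or.inl rfl), if_neg, if_pos (Or.inl rfl)]
      · ring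
      · rintro (h | h)
        · exact n01 h.symm
        · exact n13 h
    · by_cases h2 : i = 2
      · subst h2
        rw [if_pos rfl, if_neg, if_neg, if_pos (Or.inr (Or.inl rfl))]
        · ring
        · rintro (h | h)
          · exact n02 h.symm
          · exact n23 h
        · rintro (h | h)
          · exact n12 h.symm
          · exact n02 h.symm
      · by_cases h3 : i = 3
        · subst h3
          rw [if_neg n23.symm, if_neg, if_pos (Or.inr rfl), if_pos (Or.inr (Or.inr rfl))]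
          · ring
          · rintro (h | h)
            · exact n13 h.symm
            · exact n03 h.symm
        · rw [if_neg h2, if_neg (fun h => h.elim h1 h0), if_neg (fun h => h.elim h0 h3),
            if_neg (fun h => h.elim h1 (fun h => h.elim h2 h3))]
          ring

/-- The witness for the first relation. -/
def wit1 (d : ℕ) (t : Fin 2) : Equiv.Perm (Fin (d + 5)) :=
  if t = 0 then 1 else
    (Equiv.swap (1 : Fin (d + 5)) 2 * Equiv.swap (2 : Fin (d + 5)) 3 :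
      Equiv.Perm (Fin (d + 5))).symm

lemma wit1_0 (s : Fin (d + 5)) : slot (1 : Equiv.Perm (Fin 2 ⊕ (Fin (d + 5) × Fin 1))) (wit1 d)
    (.inl 0, s) = s := rfl

lemma wit1_1 (s : Fin (d + 5)) : slot (1 : Equiv.Perm (Fin 2 ⊕ (Fin (d + 5) × Fin 1))) (wit1 d)
    (.inl 1, s) = Equiv.swap 1 2 (Equiv.swap 2 3 s) := rfl

lemma wit1_r (i s : Fin (d + 5)) : slot (1 : Equiv.Perm (Fin 2 ⊕ (Fin (d + 5) × Fin 1)))
    (wit1 d) (.inr (i, 0), s) = i := rfl

lemma wit1_h (l : Fin 5) : Function.Bijective (fun i : Fin (d + 5) =>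
    slot (1 : Equiv.Perm (Fin 2 ⊕ (Fin (d + 5) × Fin 1))) (wit1 d) (PP 0 0 2 1 3 l i)) := by
  have h1 : (fun i : Fin (d + 5) => slot (1 : Equiv.Perm (Fin 2 ⊕ (Fin (d + 5) × Fin 1)))
      (wit1 d) (PP 0 0 2 1 3 l i)) = id := by
    funext i
    show _ = i
    fin_cases l
    · rfl
    · rfl
    · show slot (1 : Equiv.Perm (Fin 2 ⊕ (Fin (d + 5) × Fin 1))) (wit1 d)
        (PP 0 0 2 1 3 2 i) = i
      rw [PP_2]
      split_ifs with h
      · rw [wit1_1, Equiv.swap_apply_of_ne_of_ne n02 n03, Equiv.swap_apply_of_ne_of_ne n01 n02, h]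
      · rw [wit1_r]
    · show slot (1 : Equiv.Perm (Fin 2 ⊕ (Fin (d + 5) × Fin 1))) (wit1 d)
        (PP 0 0 2 1 3 3 i) = i
      rw [PP_3]
      split_ifs with h h'
      · rw [wit1_0, h]
      · rw [wit1_1, Equiv.swap_apply_of_ne_of_ne n12 n13, Equiv.swap_apply_left, h']
      · rw [wit1_r]
    · show slot (1 : Equiv.Perm (Fin 2 ⊕ (Fin (d + 5) × Fin 1))) (wit1 d)
        (PP 0 0 2 1 3 4 i) = i
      rw [PP_4]
      split_ifs with h h'
      · rw [wit1_0, h]
      · rw [wit1_1, Equiv.swap_apply_left, Equiv.swap_apply_of_ne_of_ne n13.symm n23.symm, h']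
      · rw [wit1_r]
  rw [h1]
  exact Function.bijective_id

/-- The witness for the second relation. -/
def wit2 (d : ℕ) (t : Fin 2) : Equiv.Perm (Fin (d + 5)) :=
  if t = 0 then (Equiv.swap 1 3).symm else (Equiv.swap 0 2).symm

lemma wit2_0 (s : Fin (d + 5)) : slot (1 : Equiv.Perm (Fin 2 ⊕ (Fin (d + 5) × Fin 1))) (wit2 d)
    (.inl 0, s) = Equiv.swap 1 3 s := rfl

lemma wit2_1 (s : Fin (d + 5)) : slot (1 : Equiv.Perm (Fin 2 ⊕ (Fin (d + 5) × Fin 1))) (wit2 d)
    (.inl 1, s) = Equiv.swap 0 2 s := rfl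

lemma wit2_r (i s : Fin (d + 5)) : slot (1 : Equiv.Perm (Fin 2 ⊕ (Fin (d + 5) × Fin 1)))
    (wit2 d) (.inr (i, 0), s) = i := rfl

lemma wit2_h (l : Fin 5) : Function.Bijective (fun i : Fin (d + 5) =>
    slot (1 : Equiv.Perm (Fin 2 ⊕ (Fin (d + 5) × Fin 1))) (wit2 d) (PP 2 1 0 0 3 l i)) := by
  fin_cases l
  · exact Function.bijective_id
  · exact Function.bijective_id
  · have h1 : (fun i : Fin (d + 5) => slot (1 : Equiv.Perm (Fin 2 ⊕ (Fin (d + 5) × Fin 1)))
        (wit2 d) (PP 2 1 0 0 3 2 i)) = id := by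
      funext i
      show _ = i
      rw [PP_2]
      split_ifs with h
      · rw [wit2_1, Equiv.swap_apply_left, h]
      · rw [wit2_r]
    have h2 := Function.bijective_id (α := Fin (d + 5))
    rw [← h1] at h2
    exact h2
  · have h1 : (fun i : Fin (d + 5) => slot (1 : Equiv.Perm (Fin 2 ⊕ (Fin (d + 5) × Fin 1)))
        (wit2 d) (PP 2 1 0 0 3 3 i)) = Equiv.swap 0 1 := by
      funext i
      rw [PP_3]
      split_ifs with h h'
      · rw [wit2_0, Equiv.swap_apply_of_ne_of_ne n01 n03, h, Equiv.swap_apply_right]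
      · rw [wit2_1, Equiv.swap_apply_of_ne_of_ne n01.symm n12, h', Equiv.swap_apply_left]
      · rw [wit2_r, Equiv.swap_apply_of_ne_of_ne h' h]
    have h2 := (Equiv.swap (0 : Fin (d + 5)) 1).bijective
    rw [← h1] at h2
    exact h2
  · have h1 : (fun i : Fin (d + 5) => slot (1 : Equiv.Perm (Fin 2 ⊕ (Fin (d + 5) × Fin 1)))
        (wit2 d) (PP 2 1 0 0 3 4 i)) = Equiv.swap 0 3 := by
      funext i
      rw [PP_4]
      split_ifs with h h'
      · rw [wit2_0, Equiv.swap_apply_left, h, Equiv.swap_apply_left]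
      · rw [wit2_1, Equiv.swap_apply_right, h', Equiv.swap_apply_right]
      · rw [wit2_r, Equiv.swap_apply_of_ne_of_ne h h']
    have h2 := (Equiv.swap (0 : Fin (d + 5)) 3).bijective
    rw [← h1] at h2
    exact h2

lemma CC_eq1 (w₁ w₂ : A) (V : Fin (d + 5) → A) :
    CC w₁ w₂ V 1 0 2 0 3 = CC w₁ w₂ V 0 1 0 2 3 := by
  funext i
  simp only [CC]
  have h1 : (i = 1 ∨ i = 0) ↔ (i = 0 ∨ i = 1) := or_comm
  have h2 : (i = 2 ∨ i = 0 ∨ i = 3) ↔ (i = 0 ∨ i = 2 ∨ i = 3) := or_left_comm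
  simp only [h1, h2]

lemma CC_eq2 (w₁ w₂ : A) (V : Fin (d + 5) → A) :
    CC w₁ w₂ V 0 3 2 1 0 = CC w₁ w₂ V 0 3 0 2 1 := by
  funext i
  simp only [CC]
  have h2 : (i = 2 ∨ i = 1 ∨ i = 0) ↔ (i = 0 ∨ i = 2 ∨ i = 1) := by tauto
  simp only [h2]

open Classical in
/-- The placement for products of linear forms in the slots. -/
theorem place2_prod (L : Submodule ℂ A) (F : MultilinearMap ℂ (fun _ : Fin (d + 5) => A) ℂ)
    (hs : IsSymm F) (hF : Rel 2 1 L F) (x : Fin (d + 5) → A) (hx : ∀ i, x i ∈ L)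
    (w₁ w₂ : A) (hw₁ : w₁ ∈ L) (hw₂ : w₂ ∈ L) (ζ : Fin (d + 5) → A) (hζ : ∀ i, ζ i ∈ L)
    (ζ' : A) (hζ' : ζ' ∈ L) (u : Fin (d + 5) → Fin d → A) (hu : ∀ i s, u i s ∈ L) :
    ((altC x)^[5] F) (CC w₁ w₂ (WW ζ ζ' u) 0 1 0 2 3) = 0 := by
  have hφ : IsSgn 5 ((altC x)^[5] F) := by
    have h1 : ∀ j : ℕ, IsSgn j ((altC x)^[j] F) := by
      intro j
      induction j with
      | zero => exact IsSymm.isSgn hs
      | succ j ih =>
        rw [Function.iterate_succ_apply']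
        exact ih.altC x
    exact h1 5
  set φ := (altC x)^[5] F with hφdef
  set X := φ (CC w₁ w₂ (WW ζ ζ' u) 0 1 0 2 3) with hX
  set Y := φ (CC w₁ w₂ (WW ζ ζ' u) 0 3 0 2 1) with hY
  set ζ₁ : Fin (d + 5) → A := fun i => if i = 0 then ζ' else ζ i with hζ₁
  have hζ₁L : ∀ i, ζ₁ i ∈ L := by
    intro i
    simp only [hζ₁]
    split_ifs
    · exact hζ'
    · exact hζ i
  have m1 := master L F hF x hx (PP 0 0 2 1 3) (PP_inj 0 0 2 1 3)
    (BB 0 0 2 1 3 w₁ w₂ ζ ζ₁ ζ u) (BB_P 0 0 2 1 3 w₁ w₂ ζ ζ₁ ζ u)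
    (BB_mem 0 0 2 1 3 w₁ w₂ ζ ζ₁ ζ u L hw₁ hw₂ hζ hζ₁L hζ hu n02 n13)
  have m2 := master L F hF x hx (PP 2 1 0 0 3) (PP_inj 2 1 0 0 3)
    (BB 2 1 0 0 3 w₁ w₂ ζ ζ₁ ζ u) (BB_P 2 1 0 0 3 w₁ w₂ ζ ζ₁ ζ u)
    (BB_mem 2 1 0 0 3 w₁ w₂ ζ ζ₁ ζ u L hw₁ hw₂ hζ hζ₁L hζ hu n01.symm n03)
  let f1 : Equiv.Perm (Fin 2 ⊕ (Fin (d + 5) × Fin 1)) × (Fin 2 → Equiv.Perm (Fin (d + 5))) → ℂ :=
    fun es => if h : ∀ l, Function.Bijective (fun i => slot es.1 es.2 (PP 0 0 2 1 3 l i)) then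
      (∏ l, ((Equiv.Perm.sign (Equiv.ofBijective _ (h l)) : ℤ) : ℂ)) *
        φ (cont (slot es.1 es.2) (BB 0 0 2 1 3 w₁ w₂ ζ ζ₁ ζ u)) else 0
  let f2 : Equiv.Perm (Fin 2 ⊕ (Fin (d + 5) × Fin 1)) × (Fin 2 → Equiv.Perm (Fin (d + 5))) → ℂ :=
    fun es => if h : ∀ l, Function.Bijective (fun i => slot es.1 es.2 (PP 2 1 0 0 3 l i)) then
      (∏ l, ((Equiv.Perm.sign (Equiv.ofBijective _ (h l)) : ℤ) : ℂ)) *
        φ (cont (slot es.1 es.2) (BB 2 1 0 0 3 w₁ w₂ ζ ζ₁ ζ u)) else 0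
  have m1' : ∑ es, f1 es = 0 := by
    rw [Fintype.sum_prod_type]
    exact m1
  have m2' : ∑ es, f2 es = 0 := by
    rw [Fintype.sum_prod_type]
    exact m2
  have k1 : ∀ es : Equiv.Perm (Fin 2 ⊕ (Fin (d + 5) × Fin 1)) ×
      (Fin 2 → Equiv.Perm (Fin (d + 5))),
      (h : ∀ l, Function.Bijective (fun i => slot es.1 es.2 (PP 0 0 2 1 3 l i))) →
      (slot es.1 es.2 (.inl 0, 1) = piS h 1 ∧ f1 es = X) ∨
      (slot es.1 es.2 (.inl 0, 1) = piS h 3 ∧ f1 es = -Y) := by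
    intro es h
    have h1 := cls1 h φ hφ w₁ w₂ ζ ζ₁ ζ u
    have h2 : f1 es = (∏ l, ((Equiv.Perm.sign (Equiv.ofBijective _ (h l)) : ℤ) : ℂ)) *
        φ (cont (slot es.1 es.2) (BB 0 0 2 1 3 w₁ w₂ ζ ζ₁ ζ u)) := dif_pos h
    rw [← h2, VV1] at h1
    exact h1
  have k2 : ∀ es : Equiv.Perm (Fin 2 ⊕ (Fin (d + 5) × Fin 1)) ×
      (Fin 2 → Equiv.Perm (Fin (d + 5))),
      (h : ∀ l, Function.Bijective (fun i => slot es.1 es.2 (PP 2 1 0 0 3 l i))) →
      (slot es.1 es.2 (.inl 0, 1) = piS h 0 ∧ f2 es = X) ∨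
      (slot es.1 es.2 (.inl 0, 1) = piS h 3 ∧ f2 es = Y) := by
    intro es h
    have h1 := cls2 h φ hφ w₁ w₂ ζ ζ₁ ζ u
    have h2 : f2 es = (∏ l, ((Equiv.Perm.sign (Equiv.ofBijective _ (h l)) : ℤ) : ℂ)) *
        φ (cont (slot es.1 es.2) (BB 2 1 0 0 3 w₁ w₂ ζ ζ₁ ζ u)) := dif_pos h
    rw [← h2, VV2, CC_eq1, CC_eq2] at h1
    exact h1
  obtain ⟨p1, q1, hp1, hs1⟩ := sum_cls f1 X (-Y) (by
    intro es
    by_cases h : ∀ l, Function.Bijective (fun i => slot es.1 es.2 (PP 0 0 2 1 3 l i))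
    · right
      exact (k1 es h).imp (fun h => h.2) (fun h => h.2)
    · left
      exact dif_neg h) (1, wit1 d) (by
    rcases k1 (1, wit1 d) wit1_h with h1 | h1
    · exact h1.2
    · exfalso
      exact n13 h1.1)
  obtain ⟨p2, q2, hp2, hs2⟩ := sum_cls f2 Y X (by
    intro es
    by_cases h : ∀ l, Function.Bijective (fun i => slot es.1 es.2 (PP 2 1 0 0 3 l i))
    · right
      exact ((k2 es h).imp (fun h => h.2) (fun h => h.2)).symm
    · left
      exact dif_neg h) (1, wit2 d) (by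
    rcases k2 (1, wit2 d) wit2_h with h1 | h1
    · exfalso
      have h2 : (Equiv.swap 1 3 (1 : Fin (d + 5))) = 0 := h1.1
      rw [Equiv.swap_apply_left] at h2
      exact n03 h2.symm
    · exact h1.2)
  rw [hs1] at m1'
  rw [hs2] at m2'
  have h3 : ((p1 * p2 + q1 * q2 : ℕ) : ℂ) * X = 0 := by
    push_cast
    linear_combination (p2 : ℂ) * m1' + (q1 : ℂ) * m2'
  refine (mul_eq_zero.1 h3).resolve_left (Nat.cast_ne_zero.2 ?_)
  have h4 : 1 ≤ p1 * p2 := Nat.mul_le_mul hp1 hp2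
  omega

/-- The placement for arbitrary contents of the slots. -/
theorem place2_mult (L : Submodule ℂ A) (F : MultilinearMap ℂ (fun _ : Fin (d + 5) => A) ℂ)
    (hs : IsSymm F) (hF : Rel 2 1 L F) (x : Fin (d + 5) → A) (hx : ∀ i, x i ∈ L)
    (w₁ w₂ : A) (hw₁ : w₁ ∈ L) (hw₂ : w₂ ∈ L) (v : Fin (d + 5) → A) (hv0 : v 0 ∈ L ^ (d + 2))
    (hv1 : ∀ p, (p = 1 ∨ p = 2 ∨ p = 3) → v p ∈ L ^ (d + 1))
    (hv2 : ∀ p, p ≠ 0 → ¬ (p = 1 ∨ p = 2 ∨ p = 3) → v p ∈ L ^ d) :
    ((altC x)^[5] F) (CC w₁ w₂ v 0 1 0 2 3) = 0 := by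
  classical
  set G' := mulArg ((altC x)^[5] F) (fun p : Fin (d + 5) => (if p = 0 ∨ p = 1 then 1 else w₁) *
    (if p = 0 ∨ p = 2 ∨ p = 3 then 1 else w₂)) with hG'
  have h1 : G' v = 0 := by
    apply mzero_of_span G'
      (fun p => if p = 0 then {z : A | ∃ u : Fin (d + 2) → A, (∀ s, u s ∈ L) ∧ z = ∏ s, u s}
        else if p = 1 ∨ p = 2 ∨ p = 3 then
          {z : A | ∃ u : Fin (d + 1) → A, (∀ s, u s ∈ L) ∧ z = ∏ s, u s}
        else {z : A | ∃ u : Fin d → A, (∀ s, u s ∈ L) ∧ z = ∏ s, u s})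
    · intro y hy
      have h2 : ∀ p : Fin (d + 5), ∃ ζ ζ' : A, ∃ u : Fin d → A, ζ ∈ L ∧ ζ' ∈ L ∧
          (∀ s, u s ∈ L) ∧ y p = if p = 0 then ζ * ζ' * ∏ s, u s else
            if p = 1 ∨ p = 2 ∨ p = 3 then ζ * ∏ s, u s else ∏ s, u s := by
        intro p
        have h3 := hy p
        by_cases hp : p = 0
        · rw [if_pos hp] at h3
          obtain ⟨u, hu, hup⟩ := h3
          refine ⟨u 0, u 1, fun s => u s.succ.succ, hu 0, hu 1, fun s => hu _, ?_⟩
          rw [if_pos hp, hup, Fin.prod_univ_succ, Fin.prod_univ_succ, ← mul_assoc]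
          rfl
        · rw [if_neg hp] at h3
          by_cases hp' : p = 1 ∨ p = 2 ∨ p = 3
          · rw [if_pos hp'] at h3
            obtain ⟨u, hu, hup⟩ := h3
            refine ⟨u 0, w₁, fun s => u s.succ, hu 0, hw₁, fun s => hu _, ?_⟩
            rw [if_neg hp, if_pos hp', hup, Fin.prod_univ_succ]
          · rw [if_neg hp'] at h3
            obtain ⟨u, hu, hup⟩ := h3
            exact ⟨w₁, w₁, u, hw₁, hw₁, hu, by rw [if_neg hp, if_neg hp', hup]⟩
      choose ζ ζ' u hζ hζ' hu hyu using h2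
      rw [hG', mulArg_apply, ← place2_prod L F hs hF x hx w₁ w₂ hw₁ hw₂ ζ hζ (ζ' 0) (hζ' 0) u hu]
      congr 1
      funext p
      rw [hyu p]
      simp only [CC, WW]
      by_cases hp : p = 0
      · subst hp
        rfl
      · rw [if_neg hp, if_neg hp]
    · intro p
      by_cases hp : p = 0
      · rw [if_pos hp, hp]
        exact pow_eq_span L (d + 2) hv0
      · rw [if_neg hp]
        by_cases hp' : p = 1 ∨ p = 2 ∨ p = 3
        · rw [if_pos hp']
          exact pow_eq_span L (d + 1) (hv1 p hp')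
        · rw [if_neg hp']
          exact pow_eq_span L d (hv2 p hp hp')
  rw [hG', mulArg_apply] at h1
  exact h1

lemma card3 : (({0, 2, 3} : Finset (Fin (d + 5)))ᶜ).card = d + 2 := by
  rw [Finset.card_compl, Fintype.card_fin, Finset.card_insert_of_notMem,
    Finset.card_insert_of_notMem, Finset.card_singleton]
  · rfl
  · rw [Finset.mem_singleton]
    exact n23
  · rw [Finset.mem_insert, Finset.mem_singleton]
    rintro (h | h)
    · exact n02 h
    · exact n03 h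

/-- `a = d + 5`. -/
theorem place2_aux (L : Submodule ℂ A) (F : MultilinearMap ℂ (fun _ : Fin (d + 5) => A) ℂ)
    (hs : IsSymm F) (hF : Rel 2 1 L F) (x : Fin (d + 5) → A) (hx : ∀ i, x i ∈ L)
    (w : A) (hw : w ∈ L) (v : Fin (d + 5) → A)
    (hv1 : ∀ p : Fin (d + 5), (p : ℕ) < 2 → v p ∈ L ^ (d + 2))
    (hv2 : ∀ p : Fin (d + 5), 2 ≤ (p : ℕ) → v p ∈ L ^ (d + 1)) :
    ((altC x)^[5] F) (fun p => if (p : ℕ) < 2 then v p else w * v p) = 0 := by
  classical
  have hlt : ∀ p : Fin (d + 5), (p : ℕ) < 2 ↔ (p = 0 ∨ p = 1) := by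
    intro p
    constructor
    · intro h
      by_cases h0 : (p : ℕ) = 0
      · left
        exact Fin.ext h0
      · right
        apply Fin.ext
        rw [Fin.val_one]
        omega
    · rintro (h | h)
      · rw [h, Fin.val_zero]
        omega
      · rw [h, Fin.val_one]
        omega
  have hge : ∀ p : Fin (d + 5), p ≠ 0 → p ≠ 1 → 2 ≤ (p : ℕ) := by
    intro p h0 h1
    by_contra hcon
    rcases (hlt p).1 (by omega) with h | h
    · exact h0 h
    · exact h1 h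
  set Φ := mulArg ((altC x)^[5] F) (fun p : Fin (d + 5) => if p = 0 ∨ p = 1 then 1 else w)
    with hΦ
  have hmem : ∀ p : Fin (d + 5), p ∈ ({0, 2, 3} : Finset (Fin (d + 5)))ᶜ ↔
      ¬ (p = 0 ∨ p = 2 ∨ p = 3) := by
    intro p
    rw [Finset.mem_compl, Finset.mem_insert, Finset.mem_insert, Finset.mem_singleton]
  have h1 : Φ v = 0 := by
    refine plem_one L Φ (({0, 2, 3} : Finset (Fin (d + 5)))ᶜ)
      (fun p => if p = 1 then d + 2 else d + 1) 1 ?_ ?_ ?_ v ?_ v ?_ (fun x _ => rfl)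
    · rw [hmem]
      rintro (h | h | h)
      · exact n01 h.symm
      · exact n12 h
      · exact n13 h
    · rw [card3, if_pos rfl]
    · intro p _
      rw [card3]
      split_ifs
      · omega
      · omega
    · intro w₂ hw₂ v' hv' hv'Q
      rw [hΦ, mulArg_apply, ← place2_mult L F hs hF x hx w w₂ hw hw₂ v' ?_ ?_ ?_]
      · congr 1
        funext p
        simp only [CC]
        by_cases hp : p = 0 ∨ p = 2 ∨ p = 3
        · rw [if_neg (fun h => (hmem p).1 h hp), if_pos hp, mul_one]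
        · rw [if_pos ((hmem p).2 hp), if_neg hp, mul_assoc]
      · rw [hv'Q 0 (fun h => (hmem 0).1 h (Or.inl rfl))]
        exact hv1 0 (by rw [Fin.val_zero]; omega)
      · intro p hp
        by_cases hp1 : p = 1
        · have h3 := hv' p ((hmem p).2 (by
            rw [hp1]
            rintro (h | h | h)
            · exact n01 h.symm
            · exact n12 h
            · exact n13 h))
          rw [if_pos hp1] at h3
          exact h3
        · have hp' : p = 2 ∨ p = 3 := hp.resolve_left hp1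
          rw [hv'Q p (fun h => (hmem p).1 h (Or.inr hp'))]
          apply hv2 p (hge p ?_ hp1)
          rintro rfl
          rcases hp' with h | h
          · exact n02 h
          · exact n03 h
      · intro p hp0 hp
        rw [not_or] at hp
        have h3 := hv' p ((hmem p).2 (fun h => h.elim hp0 hp.2))
        rw [if_neg hp.1] at h3
        exact h3
    · intro p hp
      by_cases hp1 : p = 1
      · rw [if_pos hp1]
        exact hv1 p ((hlt p).2 (Or.inr hp1))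
      · rw [if_neg hp1]
        apply hv2 p (hge p ?_ hp1)
        rintro rfl
        exact (hmem 0).1 hp (Or.inl rfl)
  rw [hΦ, mulArg_apply] at h1
  rw [← h1]
  congr 1
  funext p
  by_cases hp : (p : ℕ) < 2
  · rw [if_pos hp, if_pos ((hlt p).1 hp), one_mul]
  · rw [if_neg hp, if_neg (fun h => hp ((hlt p).2 h))]

end Two

/-- **The two five-column placements for `b = a + 2`**: the hypothesis of the exchange lemma with
two free slots, for the form contracted five times. -/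
theorem place2 {c : ℕ} (hc : 1 ≤ c) (L : Submodule ℂ A)
    (F : MultilinearMap ℂ (fun _ : Fin (c + 4) => A) ℂ) (hs : IsSymm F)
    (hF : H270.Rel 2 1 L F) (x : Fin (c + 4) → A) (hx : ∀ i, x i ∈ L)
    (w : A) (hw : w ∈ L) (v : Fin (c + 4) → A)
    (hv1 : ∀ p : Fin (c + 4), (p : ℕ) < 2 → v p ∈ L ^ (c + 1))
    (hv2 : ∀ p : Fin (c + 4), 2 ≤ (p : ℕ) → v p ∈ L ^ c) :
    ((altC x)^[5] F) (fun p => if (p : ℕ) < 2 then v p else w * v p) = 0 := by
  obtain ⟨d, rfl⟩ : ∃ d, c = d + 1 := ⟨c - 1, by omega⟩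
  exact place2_aux (d := d) L F hs hF x hx w hw v hv1 hv2

end Vale.Agent.P181.H394
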